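import Mathlib
import Vale.Agent.P204.Est.Density
import Vale.Agent.P204.Est.Energy
import Vale.Agent.P204.General.Stmts
import Vale.Agent.P204.General.Forms
import Vale.Agent.P204.General.Dual
import Vale.Agent.P204.General.Basic.Bounds

/-!
# P204 on a closed four-manifold: atoms and points as spaces, and the test data
-/

open MeasureTheory Matrix Filter Set
open scoped ContDiff Topology

namespace Vale.Agent.P204.General

open Vale.Agent.P204.Torus Vale.Agent.P204.Est

variable {N K : ℕ} (A : Atlas N K)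

/-- The atoms. -/
noncomputable def Atlas.atomsM (m : Measure (Amb N × Amb N)) : Measure A.unitTan :=
  m.comap Subtype.val

/-- The points. -/
noncomputable def Atlas.cellsM : Measure A.X := A.vol.comap Subtype.val

/-- The point of an atom. -/
def Atlas.ptX (p : A.unitTan) : A.X := ⟨p.1.1, p.2.1⟩

/-- The distance. -/
def Atlas.distX (x y : A.X) : ℝ := ‖x.1 - y.1‖

/-- The transversal part of the displacement. -/
noncomputable def Atlas.rtX (J : Amb N → MN N) (x : A.X) (p : A.unitTan) : ℝ :=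
  Real.sqrt (A.offX J p.1.1 p.1.2 (x.1 - p.1.1))

/-- The angle of two atoms, up to the distance of their points. -/
noncomputable def Atlas.thX (J : Amb N → MN N) (q p : A.unitTan) : ℝ :=
  Real.sqrt (A.offX J p.1.1 p.1.2 q.1.2) + ‖q.1.1 - p.1.1‖

/-- The test form against an atom. -/
noncomputable def Atlas.rawD (J : Amb N → MN N) (s : ℝ) (x : A.X) (p : A.unitTan) : ℝ :=
  p.1.2 ⬝ᵥ (A.ddPot J s x.1 p.1.1 *ᵥ (J p.1.1 *ᵥ p.1.2))

/-- The test form against the regular part. -/
noncomputable def Atlas.rawE (J ρ : Amb N → MN N) (s : ℝ) (x y : A.X) : ℝ :=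
  A.wedgePt y.1 (ρ y.1) (A.ddPot J s x.1 y.1)

/-- The test data of an almost complex structure and a regular part. -/
noncomputable def Atlas.testData (J ρ : Amb N → MN N) : TestData A.unitTan A.X where
  q x y := A.q0 J x.1 y.1
  gl p := p.1.2 ⬝ᵥ (A.gMat J p.1.1 *ᵥ p.1.2)
  rt := A.rtX J
  D s x p := if 0 < s ∧ s ≤ 1 then A.rawD J s x p
    else if s = 0 ∧ 0 < A.distX x (A.ptX p) then A.rawD J 0 x p else 0
  E s x y := if 0 < s ∧ s ≤ 1 then A.rawE J ρ s x y
    else if s = 0 ∧ 0 < A.distX x y then A.rawE J ρ 0 x y else 0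
  rho y := Real.sqrt (A.sqX y.1 (ρ y.1))

variable {A}

theorem measurableSet_unitTan : MeasurableSet A.unitTan :=
  A.isCompact_unitTan.isClosed.measurableSet

theorem measurableSet_manifold : MeasurableSet A.X := A.compact.isClosed.measurableSet

instance atomsM_finite {m : Measure (Amb N × Amb N)} [IsFiniteMeasure m] :
    IsFiniteMeasure (A.atomsM m) :=
  ⟨by
    rw [Atlas.atomsM, (MeasurableEmbedding.subtype_coe measurableSet_unitTan).comap_apply]
    exact measure_lt_top _ _⟩

theorem integral_atomsM {m : Measure (Amb N × Amb N)} (hs : ∀ᵐ p ∂m, p ∈ A.unitTan)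
    (f : Amb N × Amb N → ℝ) : ∫ z, f z.1 ∂(A.atomsM m) = ∫ p, f p ∂m := by
  rw [Atlas.atomsM, integral_subtype_comap measurableSet_unitTan,
    Measure.restrict_eq_self_of_ae_mem hs]

theorem integral_cellsM (hs : ∀ᵐ x ∂A.vol, x ∈ A.X) (f : Amb N → ℝ) :
    ∫ z, f z.1 ∂A.cellsM = ∫ x, f x ∂A.vol := by
  rw [Atlas.cellsM, integral_subtype_comap measurableSet_manifold,
    Measure.restrict_eq_self_of_ae_mem hs]

theorem continuous_ptX : Continuous A.ptX :=
  (continuous_fst.comp continuous_subtype_val).subtype_mk _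

theorem continuous_distX : Continuous fun z : A.X × A.X => A.distX z.1 z.2 := by
  unfold Atlas.distX; fun_prop

theorem exists_dist_le : ∃ D, 0 ≤ D ∧ ∀ x y : A.X, A.distX x y ≤ D := by
  obtain ⟨B, hB⟩ := A.compact.exists_bound_of_continuousOn (continuous_id.continuousOn (s := A.X))
  refine ⟨2 * |B|, by positivity, fun x y => (norm_sub_le _ _).trans ?_⟩
  have hx : ‖x.1‖ ≤ B := hB x.1 x.2
  have hy : ‖y.1‖ ≤ B := hB y.1 y.2
  linarith [le_abs_self B]

/-- The distance to a line as a quadratic form. -/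
theorem offX_smul (J : Amb N → MN N) (y l v : Amb N) (t : ℝ) :
    A.offX J y l (t • v) = t ^ 2 * A.offX J y l v := by
  simp only [Atlas.offX, mulVec_smul, smul_dotProduct, dotProduct_smul, smul_eq_mul]
  ring

theorem offX_parallelogram (J : Amb N → MN N) (y l a b : Amb N) :
    A.offX J y l (a + b) + A.offX J y l (a - b) = 2 * A.offX J y l a + 2 * A.offX J y l b := by
  simp only [Atlas.offX, mulVec_add, mulVec_sub, add_dotProduct, sub_dotProduct, dotProduct_add,
    dotProduct_sub]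
  ring

section J

variable {J : Amb N → MN N} (hJ : IsACS A J)
include hJ

theorem offX_add_le {y l : Amb N} (hl : A.IsTan y l) (a b : Amb N) :
    A.offX J y l (a + b) ≤ 2 * A.offX J y l a + 2 * A.offX J y l b := by
  have h := offX_parallelogram (A := A) J y l a b
  have h0 := Atlas.offX_nonneg hJ hl (a - b)
  linarith

theorem offX_J {y l : Amb N} (hl : A.IsTan y l) (v : Amb N) :
    A.offX J y l (J y *ᵥ v) = A.offX J y l v := by
  have hy := A.mem_of_isTan hl
  set a := A.proj y *ᵥ v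
  have ha : A.IsTan y a := A.proj_tan hy v
  have hJl := Atlas.J_tan hJ hy l
  have hPJ : A.proj y *ᵥ (J y *ᵥ v) = J y *ᵥ a := by
    rw [A.proj_fix (Atlas.J_tan hJ hy v), Atlas.J_proj hJ hy]
  have e1 : (J y *ᵥ a) ⬝ᵥ (A.gMat J y *ᵥ (J y *ᵥ a)) = a ⬝ᵥ (A.gMat J y *ᵥ a) := Atlas.g_J hJ ha ha
  have e2 : (J y *ᵥ a) ⬝ᵥ (A.gMat J y *ᵥ (J y *ᵥ l)) = a ⬝ᵥ (A.gMat J y *ᵥ l) := Atlas.g_J hJ ha hl
  have e3 : (J y *ᵥ a) ⬝ᵥ (A.gMat J y *ᵥ l) = -(a ⬝ᵥ (A.gMat J y *ᵥ (J y *ᵥ l))) := by
    have h := Atlas.g_J hJ (Atlas.J_tan hJ hy a) hl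
    rw [Atlas.J_J hJ ha, neg_dotProduct] at h
    linarith
  simp only [Atlas.offX]
  rw [hPJ, e1, e2, e3]
  ring

theorem exists_offX_le : ∃ B : ℝ, 0 ≤ B ∧ ∀ p ∈ A.unitTan, ∀ w,
    A.offX J p.1 p.2 w ≤ B * ‖w‖ ^ 2 := by
  have hK : IsCompact ((Set.univ : Set A.unitTan) ×ˢ Metric.closedBall (0 : Amb N) 1) := by
    have : CompactSpace A.unitTan := isCompact_iff_compactSpace.1 A.isCompact_unitTan
    exact isCompact_univ.prod (isCompact_closedBall _ _)
  obtain ⟨B, hB⟩ := hK.exists_bound_of_continuousOn (Atlas.offX_continuous hJ).continuousOn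
  refine ⟨|B|, abs_nonneg _, fun p hp w => ?_⟩
  rcases eq_or_ne w 0 with rfl | hw
  · have := offX_smul (A := A) J p.1 p.2 0 0
    simp at this ⊢
    linarith
  have hn : 0 < ‖w‖ := norm_pos_iff.2 hw
  have h := hB (⟨p, hp⟩, ‖w‖⁻¹ • w) ⟨trivial, mem_closedBall_zero_iff.2 (by
    rw [norm_smul, norm_inv, norm_norm, inv_mul_cancel₀ hn.ne'])⟩
  rw [Real.norm_eq_abs] at h
  have e : A.offX J p.1 p.2 w = ‖w‖ ^ 2 * A.offX J p.1 p.2 (‖w‖⁻¹ • w) := by
    rw [← offX_smul, smul_smul, mul_inv_cancel₀ hn.ne', one_smul]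
  rw [e, mul_comm |B|]
  exact mul_le_mul_of_nonneg_left (((le_abs_self _).trans h).trans (le_abs_self B)) (sq_nonneg _)

theorem continuous_J_entry (a b : Fin N) : Continuous fun z : A.X => J z.1 a b :=
  (Atlas.J_continuousOn hJ a b).domRestrict

theorem continuous_gMat_entry (a b : Fin N) : Continuous fun z : A.X => A.gMat J z.1 a b :=
  (Atlas.gMat_continuousOn hJ a b).domRestrict

theorem continuous_q0 : Continuous fun z : A.X × A.X => A.q0 J z.1.1 z.2.1 := by
  have hP : ∀ a b, Continuous fun z : A.X => A.proj z.1 a b := fun a b =>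
    (A.proj_continuousOn a b).domRestrict
  have hg := continuous_gMat_entry hJ
  have hM : ∀ a b, Continuous fun z : A.X => A.mMat J z.1 a b := fun a b => by
    simp only [Atlas.mMat, Matrix.add_apply, Matrix.sub_apply, Matrix.mul_apply, Matrix.transpose_apply]
    exact ((continuous_finsetSum _ fun j _ => (continuous_finsetSum _ fun k _ =>
      (hP k a).mul (hg k j)).mul (hP j b))).add (continuous_const.sub (hP a b))
  unfold Atlas.q0
  simp only [dotProduct, mulVec, Matrix.add_apply]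
  have h1 : ∀ a b, Continuous fun z : A.X × A.X => A.mMat J z.1.1 a b :=
    fun a b => (hM a b).comp continuous_fst
  have h2 : ∀ a b, Continuous fun z : A.X × A.X => A.mMat J z.2.1 a b :=
    fun a b => (hM a b).comp continuous_snd
  have h3 : ∀ b, Continuous fun z : A.X × A.X => (z.2.1 - z.1.1) b := fun b =>
    (continuous_apply b).comp
      ((continuous_subtype_val.comp continuous_snd).sub (continuous_subtype_val.comp continuous_fst))
  exact continuous_const.mul (continuous_finsetSum _ fun a _ =>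
    (h3 a).mul (continuous_finsetSum _ fun b _ => ((h1 a b).add (h2 a b)).mul (h3 b)))

theorem continuous_gl : Continuous fun p : A.unitTan => p.1.2 ⬝ᵥ (A.gMat J p.1.1 *ᵥ p.1.2) := by
  have hg : ∀ a b, Continuous fun p : A.unitTan => A.gMat J p.1.1 a b := fun a b =>
    (continuous_gMat_entry hJ a b).comp continuous_ptX
  simp only [dotProduct, mulVec]
  fun_prop

theorem continuous_rtX : Continuous fun z : A.X × A.unitTan => A.rtX J z.1 z.2 := by
  refine ((Atlas.offX_continuous hJ).comp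
    (continuous_snd.prodMk (?_ : Continuous fun z : A.X × A.unitTan => z.1.1 - z.2.1.1))).sqrt
  fun_prop

theorem continuous_thX : Continuous fun z : A.unitTan × A.unitTan => A.thX J z.1 z.2 := by
  unfold Atlas.thX
  refine (((Atlas.offX_continuous hJ).comp
    (continuous_snd.prodMk (?_ : Continuous fun z : A.unitTan × A.unitTan => z.1.1.2))).sqrt).add ?_
  all_goals fun_prop

/-- The angle of the image under `J`. -/
theorem exists_sqrt_offX_J : ∃ B : ℝ, 0 ≤ B ∧ ∀ q p : A.unitTan,
    Real.sqrt (A.offX J p.1.1 p.1.2 (J q.1.1 *ᵥ q.1.2)) ≤ B * A.thX J q p := by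
  obtain ⟨B, hB0, hB⟩ := exists_offX_le hJ
  obtain ⟨C, hC0, hC⟩ := exists_J_lipschitz A hJ
  set B' := 2 + 2 * B * (N * C) ^ 2
  refine ⟨Real.sqrt B', Real.sqrt_nonneg _, fun q p => ?_⟩
  set x := q.1.1
  set v := q.1.2
  set y := p.1.1
  set l := p.1.2
  have hv : ∀ k, |v k| ≤ 1 := fun k => by
    have h1 : v k * v k ≤ v ⬝ᵥ v :=
      Finset.single_le_sum (f := fun k => v k * v k) (fun k _ => mul_self_nonneg _) (Finset.mem_univ k)
    rw [q.2.2.2] at h1
    exact (sq_le_one_iff_abs_le_one (v k)).1 (by rw [sq]; exact h1)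
  have hd : ‖(J x - J y) *ᵥ v‖ ≤ N * C * ‖x - y‖ := by
    refine (pi_norm_le_iff_of_nonneg (by positivity)).2 fun a => ?_
    rw [Real.norm_eq_abs, mulVec, dotProduct]
    refine (Finset.abs_sum_le_sum_abs _ _).trans
      ((Finset.sum_le_sum (g := fun _ => C * ‖x - y‖) fun b _ => ?_).trans_eq (by simp; ring))
    rw [abs_mul, Matrix.sub_apply]
    calc |J x a b - J y a b| * |v b| ≤ C * ‖x - y‖ * 1 :=
          mul_le_mul (hC x q.2.1 y p.2.1 a b) (hv b) (abs_nonneg _) (by positivity)
      _ = _ := mul_one _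
  have e : J x *ᵥ v = J y *ᵥ v + (J x - J y) *ᵥ v := by rw [sub_mulVec]; abel
  have h1 : A.offX J y l (J x *ᵥ v) ≤ B' * (A.offX J y l v + ‖x - y‖ ^ 2) := by
    rw [e]
    refine (offX_add_le hJ p.2.2.1 _ _).trans ?_
    rw [offX_J hJ p.2.2.1]
    have h2 : A.offX J y l ((J x - J y) *ᵥ v) ≤ B * ((N * C) ^ 2 * ‖x - y‖ ^ 2) := by
      refine (hB p.1 p.2 _).trans (mul_le_mul_of_nonneg_left ?_ hB0)
      rw [← mul_pow]
      exact pow_le_pow_left₀ (norm_nonneg _) hd 2
    have h3 := Atlas.offX_nonneg hJ p.2.2.1 v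
    have h4 : 0 ≤ B * (N * C) ^ 2 := by positivity
    simp only [B']
    nlinarith [sq_nonneg ‖x - y‖, mul_nonneg h4 h3]
  refine (Real.sqrt_le_sqrt h1).trans ?_
  rw [Real.sqrt_mul (by positivity)]
  refine mul_le_mul_of_nonneg_left ?_ (Real.sqrt_nonneg _)
  refine (Real.sqrt_le_iff).2 ⟨add_nonneg (Real.sqrt_nonneg _) (norm_nonneg _), ?_⟩
  have h5 := Real.sq_sqrt (Atlas.offX_nonneg hJ p.2.2.1 v)
  show _ ≤ (Real.sqrt (A.offX J y l v) + ‖x - y‖) ^ 2
  nlinarith [mul_nonneg (Real.sqrt_nonneg (A.offX J y l v)) (norm_nonneg (x - y))]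

end J

section meas

variable {Z : Type*} [MeasurableSpace Z]

theorem measurable_pull (d : Fin K) {f : Z → Amb N} {M : Z → MN N} (hf : Measurable f)
    (hM : ∀ a b, Measurable fun z => M z a b) (i k : Fin 4) :
    Measurable fun z => A.pullAt d (M z) (A.phi d (f z)) i k := by
  simp only [Atlas.pullAt_apply]
  have hD : ∀ a i, Measurable fun z => A.dmat d (A.phi d (f z)) a i := fun a i =>
    ((A.dmat_cont d a i).comp (A.phi_cont d)).measurable.comp hf
  exact Finset.measurable_fun_sum _ fun b _ =>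
    (Finset.measurable_fun_sum _ fun a _ => (hD a i).mul (hM a b)).mul (hD b k)

theorem measurable_sqX {f : Z → Amb N} {M : Z → MN N} (hf : Measurable f)
    (hM : ∀ a b, Measurable fun z => M z a b) : Measurable fun z => A.sqX (f z) (M z) :=
  Finset.measurable_fun_sum _ fun c _ => ((A.chi_cont c).measurable.comp hf).mul
    (Finset.measurable_fun_sum _ fun i _ => Finset.measurable_fun_sum _ fun k _ =>
      (measurable_pull c hf hM i k).pow_const 2)

theorem measurable_wedgePt {f : Z → Amb N} {M M' : Z → MN N} (hf : Measurable f)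
    (hM : ∀ a b, Measurable fun z => M z a b) (hM' : ∀ a b, Measurable fun z => M' z a b) :
    Measurable fun z => A.wedgePt (f z) (M z) (M' z) := by
  refine Finset.measurable_fun_sum _ fun d _ => ((A.chi_cont d).measurable.comp hf).mul ?_
  have hp := measurable_pull (A := A) d hf hM
  have hp' := measurable_pull (A := A) d hf hM'
  have hdens : Continuous (A.dens d) := by
    refine continuous_finsetSum _ fun c _ => ((A.chi_cont c).comp (A.psi_cont d)).mul
      (Continuous.matrix_det (continuous_matrix fun i k => ?_))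
    simp only [Matrix.mul_apply]
    exact continuous_finsetSum _ fun a _ => continuous_const.mul (A.dmat_cont d a k)
  refine Measurable.div ?_ (hdens.measurable.comp ((A.phi_cont d).measurable.comp hf))
  exact (((((hp 0 1).mul (hp' 2 3)).sub ((hp 0 2).mul (hp' 1 3))).add ((hp 0 3).mul (hp' 1 2))).add
    ((hp 1 2).mul (hp' 0 3))).sub ((hp 1 3).mul (hp' 0 2)) |>.add ((hp 2 3).mul (hp' 0 1))

end meas

/-- A measurable representative of the regular part, with the same pointwise properties. -/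
theorem exists_rep {J ρ : Amb N → MN N} (hm : ∀ i k, AEStronglyMeasurable (fun x => ρ x i k) A.vol)
    (hskew : ∀ x, (ρ x)ᵀ = -ρ x) (hanti : ∀ x ∈ A.X, antiX J x (ρ x) = ρ x) :
    ∃ ρ' : Amb N → MN N, (∀ a b, Measurable fun x => ρ' x a b) ∧ ρ' =ᵐ[A.vol] ρ ∧
      (∀ x, (ρ' x)ᵀ = -ρ' x) ∧ ∀ x ∈ A.X, antiX J x (ρ' x) = ρ' x := by
  have hall : ∀ᵐ x ∂A.vol, ∀ i k, ρ x i k = (hm i k).mk _ x :=
    ae_all_iff.2 fun i => ae_all_iff.2 fun k => (hm i k).ae_eq_mk
  obtain ⟨t, hst, htm, ht0⟩ := exists_measurable_superset_of_null (ae_iff.1 hall)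
  classical
  let ρ' : Amb N → MN N := fun x => if x ∈ t then 0 else Matrix.of fun i k => (hm i k).mk _ x
  have hρ' : ∀ x, x ∉ t → ρ' x = ρ x := fun x hx => by
    have h : ∀ i k, ρ x i k = (hm i k).mk _ x := by
      by_contra hne; exact hx (hst hne)
    simp only [ρ', if_neg hx]
    ext i k
    exact (h i k).symm
  refine ⟨ρ', fun a b => ?_, ?_, fun x => ?_, fun x hx => ?_⟩
  · have e : (fun x => ρ' x a b) = fun x => if x ∈ t then 0 else (hm a b).mk _ x := by
      funext x; simp only [ρ']; split_ifs <;> rfl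
    rw [e]
    exact Measurable.ite htm measurable_const (hm a b).stronglyMeasurable_mk.measurable
  · filter_upwards [measure_eq_zero_iff_ae_notMem.1 ht0] with x hx using hρ' x hx
  · by_cases h : x ∈ t
    · simp [ρ', h]
    · rw [hρ' x h, hskew]
  · by_cases h : x ∈ t
    · simp [ρ', h, antiX]
    · rw [hρ' x h, hanti x hx]

end Vale.Agent.P204.General
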