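import Mathlib
import Vale.Agent.P204.General.Closed.Setup

/-!
# P204 on a closed four-manifold: the hypotheses of the abstract estimates hold
-/

open MeasureTheory Matrix Filter Set
open scoped ContDiff Topology

namespace Vale.Agent.P204.General

open Vale.Agent.P204.Torus Vale.Agent.P204.Est

variable {N K : ℕ} {A : Atlas N K}

theorem atomsM_real_le {m : Measure (Amb N × Amb N)} [IsFiniteMeasure m] (P : Amb N → Prop) :
    (A.atomsM m).real {p | P p.1.1} ≤ m.real {p | P p.1} := by
  rw [measureReal_def, measureReal_def, Atlas.atomsM,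
    (MeasurableEmbedding.subtype_coe measurableSet_unitTan).comap_apply]
  refine ENNReal.toReal_mono (measure_ne_top _ _) (measure_mono ?_)
  rintro _ ⟨p, hp, rfl⟩; exact hp

theorem cellsM_finite (hf : IsFiniteMeasure A.vol) : IsFiniteMeasure A.cellsM :=
  ⟨by
    rw [Atlas.cellsM, (MeasurableEmbedding.subtype_coe measurableSet_manifold).comap_apply]
    exact measure_lt_top _ _⟩

theorem cellsM_real_le [IsFiniteMeasure A.vol] (P : Amb N → Prop) :
    A.cellsM.real {p | P p.1} ≤ (A.vol {p | P p}).toReal := by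
  rw [measureReal_def, Atlas.cellsM,
    (MeasurableEmbedding.subtype_coe measurableSet_manifold).comap_apply]
  refine ENNReal.toReal_mono (measure_ne_top _ _) (measure_mono ?_)
  rintro _ ⟨p, hp, rfl⟩; exact hp

theorem measurable_rawD_of {J : Amb N → MN N} (hJ : IsACS A J) {s : ℝ}
    (hc : ∀ i k, Continuous fun z : A.X × A.X => A.ddPot J s z.1 z.2 i k) (x : A.X) :
    Measurable (A.rawD J s x) := by
  have h1 : ∀ a b, Continuous fun p : A.unitTan => A.ddPot J s x.1 p.1.1 a b := fun a b =>
    (hc a b).comp (continuous_const.prodMk continuous_ptX)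
  have h2 : ∀ a b, Continuous fun p : A.unitTan => J p.1.1 a b := fun a b =>
    (continuous_J_entry hJ a b).comp continuous_ptX
  have h3 : ∀ a, Continuous fun p : A.unitTan => p.1.2 a := fun a =>
    (continuous_apply a).comp (continuous_snd.comp continuous_subtype_val)
  show Measurable fun p : A.unitTan =>
    ∑ a, p.1.2 a * ∑ b, A.ddPot J s x.1 p.1.1 a b * ∑ d, J p.1.1 b d * p.1.2 d
  exact (continuous_finsetSum _ fun a _ => (h3 a).mul (continuous_finsetSum _ fun b _ =>
    (h1 a b).mul (continuous_finsetSum _ fun d _ => (h2 b d).mul (h3 d)))).measurable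

theorem rawD_tendsto {J : Amb N → MN N} {x : A.X} {p : A.unitTan}
    (h : ∀ i k, Tendsto (fun t => A.ddPot J t x.1 p.1.1 i k) (𝓝[>] 0) (𝓝 (A.ddPot J 0 x.1 p.1.1 i k))) :
    Tendsto (fun t => A.rawD J t x p) (𝓝[>] 0) (𝓝 (A.rawD J 0 x p)) :=
  (tendsto_finsetSum _ fun a _ => (tendsto_finsetSum _ fun b _ =>
    (h a b).mul_const ((J p.1.1 *ᵥ p.1.2) b)).const_mul (p.1.2 a) :
    Tendsto (fun t => ∑ a, p.1.2 a * ∑ b, A.ddPot J t x.1 p.1.1 a b * (J p.1.1 *ᵥ p.1.2) b) _ _)

theorem rawE_tendsto {J ρ : Amb N → MN N} {x y : A.X}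
    (h : ∀ i k, Tendsto (fun t => A.ddPot J t x.1 y.1 i k) (𝓝[>] 0) (𝓝 (A.ddPot J 0 x.1 y.1 i k))) :
    Tendsto (fun t => A.rawE J ρ t x y) (𝓝[>] 0) (𝓝 (A.rawE J ρ 0 x y)) := by
  simp only [Atlas.rawE, Atlas.wedgePt, Atlas.pullAt_apply, wedge]
  have hp : ∀ (d : Fin K) i k, Tendsto
      (fun t => ∑ b, (∑ a, A.dmat d (A.phi d y.1) a i * A.ddPot J t x.1 y.1 a b) * A.dmat d (A.phi d y.1) b k)
      (𝓝[>] 0)
      (𝓝 (∑ b, (∑ a, A.dmat d (A.phi d y.1) a i * A.ddPot J 0 x.1 y.1 a b) * A.dmat d (A.phi d y.1) b k)) :=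
    fun d i k => tendsto_finsetSum _ fun b _ =>
      (tendsto_finsetSum _ fun a _ => (h a b).const_mul _).mul_const _
  refine tendsto_finsetSum _ fun d _ => (Tendsto.div_const ?_ _).const_mul _
  exact ((((((hp d 2 3).const_mul _).sub ((hp d 1 3).const_mul _)).add ((hp d 1 2).const_mul _)).add
    ((hp d 0 3).const_mul _)).sub ((hp d 0 2).const_mul _)).add ((hp d 0 1).const_mul _)

theorem ext_pairing {ρ ρ' : Amb N → MN N} {R : (Amb N → MN N) → ℝ} (hae : ρ' =ᵐ[A.vol] ρ)
    (hvX : ∀ᵐ x ∂A.vol, x ∈ A.X) (hR : ∀ a, IsTestX A a → R a = A.wedgeInt ρ a) {a : Amb N → MN N}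
    (ha : IsTestX A a) : R a = ∫ y : A.X, A.wedgePt y.1 (ρ' y.1) (a y.1) ∂A.cellsM := by
  rw [hR a ha, integral_cellsM hvX (fun y => A.wedgePt y (ρ' y) (a y)), Atlas.wedgeInt]
  exact integral_congr_ae (hae.mono fun y hy => by simp only; rw [hy])

/-- The abstract hypotheses, from the interfaces. -/
theorem exists_data (hB : BasicStmt) (hT : TestStmt) (hAp : AprioriStmt)
    {J : Amb N → MN N} {m : Measure (Amb N × Amb N)} {R : (Amb N → MN N) → ℝ} {C₀ : ℝ}
    (hJ : IsACS A J) (hm : ObsX A J m) (hR : IsExtX A J m R C₀) :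
    ∃ (ρ : Amb N → MN N) (Aa c C : ℝ),
      Space (A.atomsM m) A.cellsM A.ptX A.distX Aa ∧
      (A.testData J ρ).Valid (A.atomsM m) A.cellsM A.ptX A.distX c C ∧
      (∀ q p, |A.thX J q p| ≤ C) ∧
      (∀ s, 0 < s → s ≤ 1 / 2 →
        ∫ q, (∫ p, A.thX J q p ^ 2 / regD (A.distX (A.ptX q) (A.ptX p)) s ^ 4 ∂(A.atomsM m))
          ∂(A.atomsM m) ≤ C * Real.log (1 / s)) ∧
      (∀ a b, Measurable fun x => ρ x a b) ∧ (∀ x, (ρ x)ᵀ = -ρ x) ∧
      (∀ a, IsTestX A a → R a = ∫ y : A.X, A.wedgePt y.1 (ρ y.1) (a y.1) ∂A.cellsM) := by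
  have := hm.finite
  obtain ⟨cb, Cb, hcb, hfv, hvX, hball, -, hwle, -, horth, -⟩ := hB A J hJ
  have := hfv
  obtain ⟨ct, Ct, hct, hT⟩ := hT A J hJ
  obtain ⟨ρ₀, C', hL2, hskew₀, hanti₀, hRρ, hgr, hrtI, hthI⟩ := hAp A J m R C₀ hJ hm hR
  obtain ⟨ρ, hρm, hae, hskew, hanti⟩ := exists_rep hL2.1 hskew₀ hanti₀
  obtain ⟨D, hD0, hD⟩ := exists_dist_le (A := A)
  obtain ⟨B, hB0, hBoff⟩ := exists_offX_le hJ
  obtain ⟨cg, Cg, hcg, hg⟩ := Atlas.g_unit_bounds hJ
  have hfin : IsFiniteMeasure A.cellsM := cellsM_finite hfv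
  set Aa := max (max |C'| |Cb|) D
  have S : Space (A.atomsM m) A.cellsM A.ptX A.distX Aa :=
    { finAtoms := inferInstance
      finVol := hfin
      ptMeas := continuous_ptX.measurable
      rMeas := continuous_distX.measurable
      rnn := fun x y => norm_nonneg _
      rle := fun x y => (hD x y).trans (le_max_right _ _)
      symm := fun x y => norm_sub_rev _ _
      Ann := hD0.trans (le_max_right _ _)
      atoms := fun x t ht => by
        refine le_trans (atomsM_real_le (A := A) fun y => ‖x.1 - y‖ ≤ t)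
          (le_trans (hgr x.1 t ht) (mul_le_mul_of_nonneg_right ?_ (sq_nonneg t)))
        exact (le_abs_self C').trans ((le_max_left _ _).trans (le_max_left _ _))
      cells := fun x t ht => by
        refine le_trans (cellsM_real_le (A := A) fun y => ‖x.1 - y‖ ≤ t)
          (le_trans (hball x.1 t ht.le) (mul_le_mul_of_nonneg_right ?_ (by positivity)))
        exact (le_abs_self Cb).trans ((le_max_right _ _).trans (le_max_left _ _)) }
  set U := (A.atomsM m).real Set.univ
  have hU : 0 ≤ U := measureReal_nonneg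
  set C := Real.sqrt B + |Cg| + |C'| + |Ct| + |Cb| * |Ct| + (Real.sqrt B + D)
    + (2 * |C'| + 2 * U * (2 * U + 20 * Aa))
  have hBs : 0 ≤ Real.sqrt B := Real.sqrt_nonneg _
  have hlast : 0 ≤ 2 * |C'| + 2 * U * (2 * U + 20 * Aa) := by
    have := S.Ann
    positivity
  have hpos : 0 ≤ |Cg| ∧ 0 ≤ |C'| ∧ 0 ≤ |Ct| ∧ 0 ≤ |Cb| * |Ct| :=
    ⟨abs_nonneg _, abs_nonneg _, abs_nonneg _, by positivity⟩
  have hC0 : 0 ≤ C := by positivity
  set c := min 1 (min cg ct)
  have hc : 0 < c := lt_min one_pos (lt_min hcg hct)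
  have hclosed : ∀ (x : A.X) (s : ℝ), 0 < s → s ≤ 1 → IsClosedX A (A.ddPot J s x.1) :=
    fun x s hs hs1 => (hT s hs hs1).1 x.1 x.2
  have hptw := fun (s : ℝ) hs hs1 (x y : A.X) => (hT s hs hs1).2.2.2.2.2.2.2 x.1 x.2 y.1 y.2
  have hlim : ∀ x y : A.X, 0 < A.distX x y → ∀ i k,
      Tendsto (fun t => A.ddPot J t x.1 y.1 i k) (𝓝[>] 0) (𝓝 (A.ddPot J 0 x.1 y.1 i k)) :=
    fun x y h => (hT 1 one_pos le_rfl).2.2.2.2.2.2.1 x.1 x.2 y.1 y.2 fun e => by
      simp [Atlas.distX, e] at h
  have hmD : ∀ (s : ℝ), 0 < s → s ≤ 1 → ∀ x : A.X, Measurable (A.rawD J s x) := fun s hs hs1 x =>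
    measurable_rawD_of hJ (hT s hs hs1).2.2.2.1 x
  have hmE : ∀ (s : ℝ), 0 < s → s ≤ 1 → ∀ x : A.X, Measurable (A.rawE J ρ s x) := fun s hs hs1 x =>
    measurable_wedgePt measurable_subtype_coe
      (fun a b => (hρm a b).comp measurable_subtype_coe)
      (fun a b => (((hT s hs hs1).2.2.2.1 a b).comp (continuous_const.prodMk continuous_id)).measurable)
  have hsm : ∀ s : ℕ, 0 < scale s ∧ scale s ≤ 1 := fun n =>
    ⟨(scale_mem n).1, (scale_mem n).2.trans (by norm_num)⟩
  have V : (A.testData J ρ).Valid (A.atomsM m) A.cellsM A.ptX A.distX c C :=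
    { cpos := hc
      cle := min_le_left _ _
      Cnn := hC0
      qMeas := (continuous_q0 hJ).measurable
      glMeas := (continuous_gl hJ).measurable
      rtMeas := fun x => ((continuous_rtX hJ).comp (continuous_const.prodMk continuous_id)).measurable
      DMeas := fun s x => by
        by_cases hs : 0 < s ∧ s ≤ 1
        · simp only [Atlas.testData, if_pos hs]; exact hmD s hs.1 hs.2 x
        simp only [Atlas.testData, if_neg hs]
        by_cases h0 : s = 0
        · simp only [h0, true_and]
          classical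
          have hset : MeasurableSet {p : A.unitTan | 0 < A.distX x (A.ptX p)} :=
            measurableSet_lt measurable_const (S.meas_atom x)
          refine measurable_of_tendsto_metrizable
            (f := fun n p => if 0 < A.distX x (A.ptX p) then A.rawD J (scale n) x p else 0)
            (fun n => Measurable.ite hset (hmD _ (hsm n).1 (hsm n).2 x) measurable_const)
            (tendsto_pi_nhds.2 fun p => ?_)
          by_cases hp : 0 < A.distX x (A.ptX p)
          · simp only [if_pos hp]; exact (rawD_tendsto (hlim x (A.ptX p) hp)).comp tendsto_scale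
          · simp only [if_neg hp]; exact tendsto_const_nhds
        · simp only [h0, false_and, if_false]; exact measurable_const
      EMeas := fun s x => by
        by_cases hs : 0 < s ∧ s ≤ 1
        · simp only [Atlas.testData, if_pos hs]; exact hmE s hs.1 hs.2 x
        simp only [Atlas.testData, if_neg hs]
        by_cases h0 : s = 0
        · simp only [h0, true_and]
          classical
          have hset : MeasurableSet {y : A.X | 0 < A.distX x y} :=
            measurableSet_lt measurable_const (S.meas_cell x)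
          refine measurable_of_tendsto_metrizable
            (f := fun n y => if 0 < A.distX x y then A.rawE J ρ (scale n) x y else 0)
            (fun n => Measurable.ite hset (hmE _ (hsm n).1 (hsm n).2 x) measurable_const)
            (tendsto_pi_nhds.2 fun y => ?_)
          by_cases hp : 0 < A.distX x y
          · simp only [if_pos hp]; exact (rawE_tendsto (hlim x y hp)).comp tendsto_scale
          · simp only [if_neg hp]; exact tendsto_const_nhds
        · simp only [h0, false_and, if_false]; exact measurable_const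
      rhoMem := by
        refine (memLp_two_iff_integrable_sq (f := fun y : A.X => Real.sqrt (A.sqX y.1 (ρ y.1)))
          (measurable_sqX measurable_subtype_coe
            fun a b => (hρm a b).comp measurable_subtype_coe).sqrt.aestronglyMeasurable).2 ?_
        have h : Integrable (fun y => A.sqX y (ρ y)) A.vol :=
          hL2.2.congr (hae.mono fun y hy => by simp only; rw [hy])
        have h2 : Integrable (fun y : A.X => A.sqX y.1 (ρ y.1)) A.cellsM :=
          (integrableOn_iff_comap_subtypeVal measurableSet_manifold).1 h.integrableOn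
        exact h2.congr (ae_of_all _ fun y => (Real.sq_sqrt (A.sqX_nonneg _ _)).symm)
      rhonn := fun x => Real.sqrt_nonneg _
      qlow := fun x y => by
        show c * A.distX x y ^ 2 ≤ A.q0 J x.1 y.1
        refine ge_of_tendsto' (x := atTop)
          (?_ : Tendsto (fun n => A.q0 J x.1 y.1 + scale n ^ 2) atTop (𝓝 _)) fun n => ?_
        · simpa using ((tendsto_nhdsWithin_iff.1 tendsto_scale).1.pow 2).const_add (A.q0 J x.1 y.1)
        · refine le_trans ?_ (hptw _ (hsm n).1 (hsm n).2 x y).1
          refine mul_le_mul ((min_le_right _ _).trans (min_le_right _ _))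
            (pow_le_pow_left₀ (norm_nonneg _) le_regD_left 2) (sq_nonneg _) hct.le
      qhigh := fun x y => by
        show A.q0 J x.1 y.1 ≤ C * A.distX x y ^ 2
        refine ge_of_tendsto' (x := atTop)
          (?_ : Tendsto (fun n => C * (A.distX x y ^ 2 + scale n ^ 2)) atTop (𝓝 _)) fun n => ?_
        · simpa using (((tendsto_nhdsWithin_iff.1 tendsto_scale).1.pow 2).const_add (A.distX x y ^ 2)).const_mul C
        · have h := (hptw _ (hsm n).1 (hsm n).2 x y).2.1
          rw [show rsX (scale n) x.1 y.1 ^ 2 = A.distX x y ^ 2 + scale n ^ 2 from regD_sq _ _] at h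
          refine le_trans (le_add_of_nonneg_right (sq_nonneg _)) (h.trans
            (mul_le_mul_of_nonneg_right ?_ (by positivity)))
          have := le_abs_self Ct
          simp only [C]
          linarith
      glow := fun p => ((min_le_right _ _).trans (min_le_left _ _)).trans (hg p.1 p.2).1
      ghigh := fun p => (hg p.1 p.2).2.trans (by
        have := le_abs_self Cg
        simp only [C]
        linarith)
      rtle := fun x p => by
        show |A.rtX J x p| ≤ C * A.distX x (A.ptX p)
        rw [Atlas.rtX, abs_of_nonneg (Real.sqrt_nonneg _)]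
        refine le_trans (Real.sqrt_le_sqrt (hBoff p.1 p.2 _)) ?_
        rw [Real.sqrt_mul hB0, Real.sqrt_sq (norm_nonneg _)]
        refine mul_le_mul_of_nonneg_right ?_ (norm_nonneg _)
        simp only [C]
        linarith
      rtInt := fun x s hs hs1 => by
        have e : (fun p : A.unitTan => (A.testData J ρ).rt x p ^ 2 / regD (A.distX x (A.ptX p)) s ^ 4)
            = fun p => (fun q : Amb N × Amb N => A.offX J q.1 q.2 (x.1 - q.1) / rsX s x.1 q.1 ^ 4) p.1 := by
          funext p
          show Real.sqrt _ ^ 2 / _ = _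
          rw [Real.sq_sqrt (Atlas.offX_nonneg hJ p.2.2.1 _)]
          rfl
        rw [e, integral_atomsM hm.supp fun q => A.offX J q.1 q.2 (x.1 - q.1) / rsX s x.1 q.1 ^ 4]
        refine (hrtI x.1 x.2 s hs hs1).trans ?_
        have := le_abs_self C'
        simp only [C]
        linarith
      Dform := fun s x p hs hs1 => by
        have h := (hptw s hs hs1 x (A.ptX p)).2.2.2.2.1 p.1.2 p.2.2.1 p.2.2.2
        simp only [Atlas.testData, if_pos (And.intro hs hs1), Atlas.rtX,
          Real.sq_sqrt (Atlas.offX_nonneg hJ p.2.2.1 _)]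
        refine le_trans h (div_le_div_of_nonneg_right ?_ (Real.sqrt_nonneg _))
        have := le_abs_self Ct
        simp only [C]
        linarith
      Ebound := fun s x y hs hs1 => by
        simp only [Atlas.testData, if_pos (And.intro hs hs1), Atlas.rawE]
        set M := A.ddPot J s x.1 y.1
        have hM : Mᵀ = -M := (hclosed x s hs hs1).skew y.1
        have h0 : A.wedgePt y.1 (ρ y.1) (inv11X J y.1 M) = 0 := by
          rw [A.wedgePt_comm, ← hanti y.1 y.2]
          exact horth y.1 y.2 M (ρ y.1) hM (hskew y.1)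
        have e : A.wedgePt y.1 (ρ y.1) M = A.wedgePt y.1 (ρ y.1) (antiX J y.1 M) := by
          conv_lhs => rw [← inv_add_anti J y.1 M]
          rw [A.wedgePt_add_right, h0, zero_add]
        rw [e]
        refine (hwle y.1 y.2 _ _).trans ?_
        have h1 := (hptw s hs hs1 x y).2.2.2.1
        have hR : 0 < regD (A.distX x y) s := regD_pos _ hs
        calc Cb * Real.sqrt (A.sqX y.1 (ρ y.1)) * Real.sqrt (A.sqX y.1 (antiX J y.1 M))
            ≤ |Cb| * Real.sqrt (A.sqX y.1 (ρ y.1)) * (|Ct| / regD (A.distX x y) s) := by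
              refine mul_le_mul (mul_le_mul_of_nonneg_right (le_abs_self _) (Real.sqrt_nonneg _))
                (h1.trans ?_) (Real.sqrt_nonneg _) (by positivity)
              exact div_le_div_of_nonneg_right (le_abs_self _) hR.le
          _ = |Cb| * |Ct| * Real.sqrt (A.sqX y.1 (ρ y.1)) / regD (A.distX x y) s := by ring
          _ ≤ _ := by
              refine div_le_div_of_nonneg_right (mul_le_mul_of_nonneg_right ?_ (Real.sqrt_nonneg _)) hR.le
              simp only [C]
              linarith [hpos.1, hpos.2.1, hpos.2.2.1]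
      Dlim := fun x p hp => by
        have e : (A.testData J ρ).D 0 x p = A.rawD J 0 x p := by
          simp [Atlas.testData, hp]
        rw [e]
        refine (rawD_tendsto (hlim x (A.ptX p) hp)).congr' ?_
        filter_upwards [eventually_small one_pos] with s hs
        simp [Atlas.testData, hs.1, hs.2]
      Elim := fun x y hp => by
        have e : (A.testData J ρ).E 0 x y = A.rawE J ρ 0 x y := by
          simp [Atlas.testData, hp]
        rw [e]
        refine (rawE_tendsto (hlim x y hp)).congr' ?_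
        filter_upwards [eventually_small one_pos] with s hs
        simp [Atlas.testData, hs.1, hs.2]
      ident := fun s x hs hs1 => by
        simp only [Atlas.testData, if_pos (And.intro hs hs1)]
        have h := hR.kills _ (hclosed x s hs hs1)
        rw [ext_pairing hae hvX hRρ (hclosed x s hs hs1).toIsTestX, tcurX,
          ← integral_atomsM hm.supp] at h
        exact h }
  refine ⟨ρ, Aa, c, C, S, V, fun q p => ?_, fun s hs hs2 => ?_, hρm, hskew,
    fun a ha => ext_pairing hae hvX hRρ ha⟩
  · rw [Atlas.thX, abs_of_nonneg (add_nonneg (Real.sqrt_nonneg _) (norm_nonneg _))]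
    have h1 : Real.sqrt (A.offX J p.1.1 p.1.2 q.1.2) ≤ Real.sqrt B := by
      refine Real.sqrt_le_sqrt ((hBoff p.1 p.2 _).trans (mul_le_of_le_one_right hB0 ?_))
      refine pow_le_one₀ (norm_nonneg _) ((pi_norm_le_iff_of_nonneg zero_le_one).2 fun k => ?_)
      have h1 : q.1.2 k * q.1.2 k ≤ q.1.2 ⬝ᵥ q.1.2 :=
        Finset.single_le_sum (f := fun k => q.1.2 k * q.1.2 k) (fun k _ => mul_self_nonneg _) (Finset.mem_univ k)
      rw [q.2.2.2] at h1
      rw [Real.norm_eq_abs]
      exact (sq_le_one_iff_abs_le_one _).1 (by rw [sq]; exact h1)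
    have h2 : ‖q.1.1 - p.1.1‖ ≤ D := hD (A.ptX q) (A.ptX p)
    simp only [C]
    linarith [hpos.1, hpos.2.1, hpos.2.2.1, hpos.2.2.2]
  · set L := Real.log (1 / s)
    have hL : 1 / 2 ≤ L := half_le_log_inv hs hs2
    set μ := A.atomsM m
    set F : A.unitTan × A.unitTan → ℝ := fun z =>
      A.offX J z.2.1.1 z.2.1.2 z.1.1.2 / regD (A.distX (A.ptX z.1) (A.ptX z.2)) s ^ 4
    set G : A.unitTan × A.unitTan → ℝ := fun z => 1 / regD (A.distX (A.ptX z.1) (A.ptX z.2)) s ^ 2
    set H : A.unitTan × A.unitTan → ℝ := fun z =>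
      A.thX J z.1 z.2 ^ 2 / regD (A.distX (A.ptX z.1) (A.ptX z.2)) s ^ 4
    have hR : ∀ z : A.unitTan × A.unitTan, 0 < regD (A.distX (A.ptX z.1) (A.ptX z.2)) s :=
      fun z => regD_pos _ hs
    have hRc : Continuous fun z : A.unitTan × A.unitTan => regD (A.distX (A.ptX z.1) (A.ptX z.2)) s := by
      unfold regD
      exact (((continuous_distX.comp ((continuous_ptX.comp continuous_fst).prodMk
        (continuous_ptX.comp continuous_snd))).pow 2).add continuous_const).sqrt
    have : CompactSpace A.unitTan := isCompact_iff_compactSpace.1 A.isCompact_unitTan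
    have hint : ∀ f : A.unitTan × A.unitTan → ℝ, Continuous f → Integrable f (μ.prod μ) := fun f hf => by
      obtain ⟨b, hb⟩ := isCompact_univ.exists_bound_of_continuousOn hf.continuousOn
      exact Integrable.of_bound hf.aestronglyMeasurable b (ae_of_all _ fun z => hb z trivial)
    have hFc : Continuous F := ((Atlas.offX_continuous hJ).comp
      (continuous_snd.prodMk (by fun_prop : Continuous fun z : A.unitTan × A.unitTan => z.1.1.2))).div
        (hRc.pow 4) fun z => (pow_pos (hR z) 4).ne'
    have hGc : Continuous G := continuous_const.div (hRc.pow 2) fun z => (pow_pos (hR z) 2).ne'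
    have hHc : Continuous H := ((continuous_thX hJ).pow 2).div (hRc.pow 4) fun z => (pow_pos (hR z) 4).ne'
    have hle : ∀ z, H z ≤ 2 * F z + 2 * G z := fun z => by
      simp only [H, F, G, Atlas.thX]
      have hR' := hR z
      have h0 := Atlas.offX_nonneg hJ z.2.2.2.1 z.1.1.2
      set o := A.offX J z.2.1.1 z.2.1.2 z.1.1.2
      set d := ‖z.1.1.1 - z.2.1.1‖
      set T := regD (A.distX (A.ptX z.1) (A.ptX z.2)) s
      have hd : d ≤ T := le_regD_left
      have hd0 : 0 ≤ d := norm_nonneg _
      have h1 := Real.sq_sqrt h0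
      have h2 : (Real.sqrt o + d) ^ 2 ≤ 2 * o + 2 * T ^ 2 := by
        nlinarith [sq_nonneg (Real.sqrt o - d), pow_le_pow_left₀ hd0 hd 2]
      refine (div_le_div_of_nonneg_right h2 (by positivity)).trans_eq ?_
      field_simp
    have hFI : ∫ z, F z ∂(μ.prod μ) ≤ C' * L := by
      rw [integral_prod _ (hint F hFc)]
      refine le_trans (le_of_eq ?_) (hthI s hs hs2)
      rw [← integral_atomsM (A := A) hm.supp]
      refine integral_congr_ae (ae_of_all _ fun q => ?_)
      simp only
      rw [← integral_atomsM (A := A) hm.supp]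
      rfl
    have hGI : ∫ z, G z ∂(μ.prod μ) ≤ U * (2 * U + 20 * Aa) * L := by
      rw [integral_prod _ (hint G hGc)]
      refine (integral_mono (hint G hGc).integral_prod_left (integrable_const _)
        fun q => S.atoms_inv_sq (A.ptX q) hs hs2).trans ?_
      rw [integral_const, smul_eq_mul, mul_assoc U]
      refine mul_le_mul_of_nonneg_left ?_ hU
      nlinarith
    have h3 := integral_mono (hint H hHc) (((hint F hFc).const_mul 2).add ((hint G hGc).const_mul 2)) hle
    simp only [Pi.add_apply] at h3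
    rw [integral_add ((hint F hFc).const_mul 2) ((hint G hGc).const_mul 2), integral_const_mul,
      integral_const_mul, integral_prod _ (hint H hHc)] at h3
    refine h3.trans ?_
    have h4 : 2 * C' + 2 * U * (2 * U + 20 * Aa) ≤ C := by
      have := le_abs_self C'
      simp only [C]
      linarith [hpos.1, hpos.2.1, hpos.2.2.1, hpos.2.2.2]
    have h5 := mul_le_mul_of_nonneg_right h4 (show 0 ≤ L by linarith)
    nlinarith

end Vale.Agent.P204.General
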