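import Mathlib
import Vale.Agent.P204.General.Tangent

/-!
# P204 on a closed four-manifold: exact forms and the product rule
-/

open MeasureTheory Matrix Filter Set
open scoped ContDiff Topology

namespace Vale.Agent.P204.General

open Vale.Agent.P204.Torus

variable {N K : ℕ} (A : Atlas N K)

/-- A function is smooth in every chart. -/
def IsFunX (f : Amb N → ℝ) : Prop := ∀ c, ContDiffOn ℝ ∞ (fun q => f (A.psi c q)) box

/-- The differential of a function, glued from the charts. -/
noncomputable def Atlas.gradX (f : Amb N → ℝ) (y : Amb N) : Amb N :=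
  ∑ c, A.chi c y • ((A.L c)ᵀ *ᵥ fun k => pd k (fun q => f (A.psi c q)) (A.phi c y))

/-- The wedge product of two covectors. -/
def wedgeOne {n : ℕ} (u v : Fin n → ℝ) : Matrix (Fin n) (Fin n) ℝ :=
  vecMulVec u v - vecMulVec v u

theorem wedgeOne_apply {n : ℕ} (u v : Fin n → ℝ) (i k : Fin n) :
    wedgeOne u v i k = u i * v k - v i * u k := rfl

theorem wedgeOne_skew {n : ℕ} (u v : Fin n → ℝ) : (wedgeOne u v)ᵀ = -wedgeOne u v := by
  ext i k
  simp only [transpose_apply, Matrix.neg_apply, wedgeOne_apply]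
  ring

theorem wedgeOne_ev {n : ℕ} (u v a b : Fin n → ℝ) :
    a ⬝ᵥ (wedgeOne u v *ᵥ b) = (a ⬝ᵥ u) * (v ⬝ᵥ b) - (a ⬝ᵥ v) * (u ⬝ᵥ b) := by
  simp only [dotProduct, mulVec, wedgeOne_apply, Finset.mul_sum, Finset.sum_mul,
    ← Finset.sum_sub_distrib]
  rw [Finset.sum_comm]
  refine Finset.sum_congr rfl fun j _ => Finset.sum_congr rfl fun i _ => ?_
  ring

theorem fderiv_dot (g : Pt → ℝ) (p u : Pt) : (fun k => pd k g p) ⬝ᵥ u = fderiv ℝ g p u := by
  have hu : u = ∑ i, u i • Pi.single (M := fun _ => ℝ) i 1 := by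
    funext k; simp [Finset.sum_apply, Pi.single_apply]
  conv_rhs => rw [hu, map_sum]
  simp only [map_smul, smul_eq_mul, dotProduct, pd]
  exact Finset.sum_congr rfl fun i _ => mul_comm _ _

namespace Atlas

theorem psi_inX (c : Fin K) {p : Pt} (hp : p ∈ box) : A.psi c p ∈ A.psi c '' box := ⟨p, hp, rfl⟩

/-- The differential in the chart `c` from the one in the chart `e`. -/
theorem fderiv_trans {f : Amb N → ℝ} (hf : IsFunX A f) (e c : Fin K) {p : Pt} (hp : p ∈ box)
    (he : A.psi c p ∈ A.psi e '' box) (u : Pt) :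
    fderiv ℝ (fun q => f (A.psi c q)) p u
      = fderiv ℝ (fun q => f (A.psi e q)) (A.trans e c p) (A.L e *ᵥ (A.dmat c p *ᵥ u)) := by
  have hmem : A.trans e c p ∈ box := A.phi_mem e he
  have hdt : HasFDerivAt (A.trans e c)
      ((Matrix.mulVecLin (A.L e)).toContinuousLinearMap.comp (fderiv ℝ (A.psi c) p)) p :=
    ((Matrix.mulVecLin (A.L e)).toContinuousLinearMap.hasFDerivAt).comp p
      ((A.psi_diff c p).hasFDerivAt.sub_const (A.o e))
  have hd : DifferentiableAt ℝ (fun q => f (A.psi e q)) (A.trans e c p) :=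
    ((hf e).differentiableOn (by norm_num)).differentiableAt (isOpen_box.mem_nhds hmem)
  have h := (hd.hasFDerivAt.comp p hdt).congr_of_eventuallyEq
    ((A.psi_trans_eventually e c hp he).mono fun q hq =>
      (congrArg f (A.psi_phi e hq.2)).symm : (fun q => f (A.psi c q)) =ᶠ[𝓝 p] _)
  rw [h.fderiv, ContinuousLinearMap.comp_apply, ContinuousLinearMap.comp_apply, ← A.dmat_mulVec]
  rfl

/-- The glued differential reads as the differential in every chart. -/
theorem pullOne_gradX {f : Amb N → ℝ} (hf : IsFunX A f) (c : Fin K) {p : Pt} (hp : p ∈ box) :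
    A.pullOne c (A.gradX f) p = fun k => pd k (fun q => f (A.psi c q)) p := by
  have hx := A.psi_mem c p hp
  funext k
  have e : ∀ d ∈ (Finset.univ : Finset (Fin K)),
      A.chi d (A.psi c p) * ((A.dmat c p)ᵀ *ᵥ ((A.L d)ᵀ *ᵥ fun j =>
        pd j (fun q => f (A.psi d q)) (A.phi d (A.psi c p)))) k
      = A.chi d (A.psi c p) * pd k (fun q => f (A.psi c q)) p := fun d _ => by
    rcases eq_or_ne (A.chi d (A.psi c p)) 0 with h | h
    · rw [h, zero_mul, zero_mul]
    refine congrArg (A.chi d (A.psi c p) * ·) ?_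
    have hd := A.supp_box hx h
    show _ = fderiv ℝ (fun q => f (A.psi c q)) p (Pi.single k 1)
    rw [A.fderiv_trans hf d c hp hd, ← fderiv_dot]
    simp only [dotProduct_mulVec, Atlas.trans]
    rw [← mulVec_transpose, ← mulVec_transpose, dotProduct_single, mul_one]
  simp only [Atlas.pullOne, Atlas.gradX, mulVec_sum, mulVec_smul, Finset.sum_apply, Pi.smul_apply,
    smul_eq_mul]
  rw [Finset.sum_congr rfl e, ← Finset.sum_mul, A.chi_sum _ hx, one_mul]

/-- The glued differential on a tangent vector. -/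
theorem gradX_dot {f : Amb N → ℝ} (hf : IsFunX A f) {y v : Amb N} (hv : A.IsTan y v) {c : Fin K}
    (hc : y ∈ A.psi c '' box) :
    A.gradX f y ⬝ᵥ v = fderiv ℝ (fun q => f (A.psi c q)) (A.phi c y) (A.L c *ᵥ v) := by
  conv_lhs => rw [← A.tan_in_chart hv c hc, dotProduct_mulVec, ← mulVec_transpose]
  have h := A.pullOne_gradX hf c (A.phi_mem c hc)
  rw [Atlas.pullOne, A.psi_phi c hc] at h
  rw [h, fderiv_dot]

theorem pullAt_wedgeOne (c : Fin K) (u v : Amb N) (p : Pt) :
    A.pullAt c (wedgeOne u v) p = wedgeOne ((A.dmat c p)ᵀ *ᵥ u) ((A.dmat c p)ᵀ *ᵥ v) := by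
  ext i k
  simp only [Atlas.pullAt, Matrix.mul_apply, transpose_apply, wedgeOne_apply, mulVec, dotProduct,
    Finset.mul_sum, Finset.sum_mul, ← Finset.sum_sub_distrib]
  refine Finset.sum_congr rfl fun a _ => Finset.sum_congr rfl fun b _ => ?_
  ring

end Atlas

/-- A form which is exact in every chart is closed. -/
theorem isClosedX_of_dOne {a : Amb N → MN N} {b : Amb N → Amb N} (hskew : ∀ x, (a x)ᵀ = -a x)
    (hb : IsOneX A b) (h : IsDOne A a b) : IsClosedX A a := by
  have hpd : ∀ c i k, ContDiffOn ℝ ∞ (fun p => pd i (fun q => A.pullOne c b q k) p) box :=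
    fun c i k => ((hb c k).fderiv_of_isOpen isOpen_box (by simp)).clm_apply contDiffOn_const
  refine ⟨⟨hskew, fun c i k => ((hpd c i k).sub (hpd c k i)).congr fun p hp => ?_⟩,
    fun c p hp i j k => ?_⟩
  · rw [h c p hp]; rfl
  · set β := fun k q => A.pullOne c b q k
    have hn : box ∈ 𝓝 p := isOpen_box.mem_nhds hp
    have hC : ∀ k, ContDiffAt ℝ ∞ (β k) p := fun k => (hb c k).contDiffAt hn
    have hdiff : ∀ i k, DifferentiableAt ℝ (fun q => pd i (β k) q) p := fun i k =>
      ((hpd c i k).differentiableOn (by norm_num)).differentiableAt hn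
    have e : ∀ i j k, pd i (fun q => A.pull c a q j k) p
        = pd i (fun q => pd j (β k) q) p - pd i (fun q => pd k (β j) q) p := fun i j k => by
      have h' : (fun q => A.pull c a q j k) =ᶠ[𝓝 p] fun q => pd j (β k) q - pd k (β j) q :=
        eventually_of_mem hn fun q hq => by
          show A.pull c a q j k = _
          rw [h c q hq]
          rfl
      simp only [pd] at h' ⊢
      rw [h'.fderiv_eq]
      have := fderiv_fun_sub (hdiff j k) (hdiff k j)
      simp only [pd] at this
      rw [this]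
      rfl
    have sym : ∀ i j k, pd i (fun q => pd j (β k) q) p = pd j (fun q => pd i (β k) q) p :=
      fun i j k => by
        have hdf : DifferentiableAt ℝ (fderiv ℝ (β k)) p :=
          ((hC k).fderiv_right (m := ∞) (by simp)).differentiableAt (by norm_num)
        simp only [pd]
        rw [fderiv_clm_apply hdf (differentiableAt_const _),
          fderiv_clm_apply hdf (differentiableAt_const _)]
        simp only [fderiv_fun_const, Pi.zero_apply, ContinuousLinearMap.comp_zero, zero_add,
          ContinuousLinearMap.flip_apply]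
        exact (hC k).isSymmSndFDerivAt (by simp; exact WithTop.coe_le_coe.2 le_top) _ _
    simp only [e, sym i j k, sym j k i, sym k i j]
    ring

theorem isTestX_of_dOne {a : Amb N → MN N} {b : Amb N → Amb N} (hskew : ∀ x, (a x)ᵀ = -a x)
    (hb : IsOneX A b) (h : IsDOne A a b) : IsTestX A a :=
  (isClosedX_of_dOne A hskew hb h).toIsTestX

/-- The differential of `G • b`, given the differential `a` of `b`. -/
noncomputable def Atlas.prodForm (G : Amb N → ℝ) (a : Amb N → MN N) (b : Amb N → Amb N)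
    (y : Amb N) : MN N :=
  G y • a y + wedgeOne (A.gradX G y) (b y)

theorem prodForm_skew (G : Amb N → ℝ) {a : Amb N → MN N} (b : Amb N → Amb N)
    (ha : ∀ x, (a x)ᵀ = -a x) (x : Amb N) : (A.prodForm G a b x)ᵀ = -A.prodForm G a b x := by
  rw [Atlas.prodForm, transpose_add, transpose_smul, ha, wedgeOne_skew, neg_add, smul_neg]

theorem isOneX_mul {G : Amb N → ℝ} (hG : IsFunX A G) {b : Amb N → Amb N} (hb : IsOneX A b) :
    IsOneX A fun y => G y • b y := fun c k => by
  simp only [Atlas.pullOne, mulVec_smul, Pi.smul_apply, smul_eq_mul]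
  exact (hG c).mul (hb c k)

/-- The product rule. -/
theorem isDOne_prod {G : Amb N → ℝ} (hG : IsFunX A G) {a : Amb N → MN N} {b : Amb N → Amb N}
    (hb : IsOneX A b) (h : IsDOne A a b) :
    IsDOne A (A.prodForm G a b) fun y => G y • b y := fun c p hp => by
  have hn : box ∈ 𝓝 p := isOpen_box.mem_nhds hp
  have hd : ∀ {f : Pt → ℝ}, ContDiffOn ℝ ∞ f box → DifferentiableAt ℝ f p := fun hf =>
    (hf.differentiableOn (by norm_num)).differentiableAt hn
  have e : ∀ i k, pd i (fun q => A.pullOne c (fun y => G y • b y) q k) p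
      = G (A.psi c p) * pd i (fun q => A.pullOne c b q k) p
        + A.pullOne c b p k * pd i (fun q => G (A.psi c q)) p := fun i k => by
    simp only [Atlas.pullOne, mulVec_smul, Pi.smul_apply, smul_eq_mul, pd]
    have h2 : ContDiffOn ℝ ∞ (fun q => ((A.dmat c q)ᵀ *ᵥ b (A.psi c q)) k) box := hb c k
    rw [fderiv_fun_mul (hd (hG c)) (hd h2)]
    simp
  ext i k
  have h1 : A.pull c (A.prodForm G a b) p
      = G (A.psi c p) • A.pull c a p + wedgeOne (A.pullOne c (A.gradX G) p) (A.pullOne c b p) := by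
    simp only [Atlas.pull, Atlas.prodForm, Atlas.pullAt, Matrix.mul_add, Matrix.add_mul,
      Matrix.mul_smul, Matrix.smul_mul]
    congr 1
    exact A.pullAt_wedgeOne c _ _ p
  simp only [dOne, Matrix.of_apply, e]
  rw [h1, A.pullOne_gradX hG c hp, h c p hp]
  simp only [Matrix.add_apply, Matrix.smul_apply, smul_eq_mul, wedgeOne_apply, dOne, Matrix.of_apply]
  ring

/-- A smooth function of a chart-smooth function. -/
theorem isFunX_comp {g : ℝ → ℝ} (hg : ContDiff ℝ ∞ g) {f : Amb N → ℝ} (hf : IsFunX A f) :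
    IsFunX A fun y => g (-f y) := fun c => hg.comp_contDiffOn (hf c).neg

/-- The differential of the composition, on a tangent vector. -/
theorem gradX_comp_dot {g : ℝ → ℝ} (hg : ContDiff ℝ ∞ g) {f : Amb N → ℝ} (hf : IsFunX A f)
    {y v : Amb N} (hv : A.IsTan y v) :
    A.gradX (fun z => g (-f z)) y ⬝ᵥ v = -deriv g (-f y) * (A.gradX f y ⬝ᵥ v) := by
  obtain ⟨c, -, hc'⟩ := A.exists_chart (A.mem_of_isTan hv)
  have hc := A.mem_box_image hc'
  rw [A.gradX_dot (isFunX_comp A hg hf) hv hc, A.gradX_dot hf hv hc]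
  have hp := A.phi_mem c hc
  have hF : HasFDerivAt (fun q => f (A.psi c q)) (fderiv ℝ (fun q => f (A.psi c q)) (A.phi c y))
      (A.phi c y) :=
    (((hf c).differentiableOn (by norm_num)).differentiableAt (isOpen_box.mem_nhds hp)).hasFDerivAt
  have hg' : HasDerivAt g (deriv g (-f (A.psi c (A.phi c y)))) (-f (A.psi c (A.phi c y))) :=
    ((hg.differentiable (by norm_num)).differentiableAt).hasDerivAt
  have h := hg'.comp_hasFDerivAt (A.phi c y) hF.neg
  simp only [Function.comp_def, Pi.neg_apply] at h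
  rw [h.fderiv, A.psi_phi c hc]
  simp

end Vale.Agent.P204.General
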