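import Mathlib
import Vale.Agent.P204.Est.Param
import Vale.Agent.P204.General.Closed.Forms

/-!
# P204 on a closed four-manifold: averaged potentials are smooth in the base point
-/

open MeasureTheory Matrix Filter Set
open scoped ContDiff Topology

namespace Vale.Agent.P204.General

open Vale.Agent.P204.Torus Vale.Agent.P204.Est

variable {N K : ℕ} (A : Atlas N K)

/-- `dJd` of the potential, in a chart at each of the two points. -/
noncomputable def Atlas.ddChart (J : Amb N → MN N) (s : ℝ) (c₀ c : Fin K) (z : Pt × Pt) : M4 :=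
  -dOne (fun q' k => fderiv ℝ (fun t => A.pot J s (A.psi c₀ z.1) (A.psi c t)) q'
    (A.jc J c q' *ᵥ Pi.single k 1)) z.2

/-- The potential times `dJd` of it, in charts. -/
noncomputable def Atlas.potChart (J : Amb N → MN N) (s : ℝ) (c₀ c : Fin K) (i k : Fin 4)
    (z : Pt × Pt) : ℝ :=
  A.pot J s (A.psi c₀ z.1) (A.psi c z.2) * A.ddChart J s c₀ c z i k

/-- The average of the potential times `dJd` of it against weights. -/
noncomputable def Atlas.avgPot {Z : Type*} [MeasurableSpace Z] (J : Amb N → MN N) (s : ℝ)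
    (κ : Measure Z) (pr : Z → A.X) (ℓ : Z → MN N →ₗ[ℝ] ℝ) (x : Amb N) : ℝ :=
  ∫ z, A.pot J s x (pr z).1 * ℓ z (A.ddPot J s x (pr z).1) ∂κ

/-- The derivative in the first point of the potential times `dJd` of it. -/
noncomputable def Atlas.derMat (J : Amb N → MN N) (s : ℝ) (c₀ : Fin K) (p₀ v : Pt) (y : Amb N) :
    MN N :=
  Matrix.of fun i k =>
    fderiv ℝ (fun t => A.pot J s (A.psi c₀ t) y * A.ddPot J s (A.psi c₀ t) y i k) p₀ v

/-- The directional derivative in the second variable of a smooth function of two variables. -/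
theorem smooth_slice {F : Pt × Pt → ℝ} (hF : ContDiffOn ℝ ∞ F (box ×ˢ box)) {V : Pt → Pt}
    (hV : ContDiffOn ℝ ∞ V box) :
    ContDiffOn ℝ ∞ (fun z : Pt × Pt => fderiv ℝ (fun t => F (z.1, t)) z.2 (V z.2)) (box ×ˢ box) := by
  intro z hz
  refine ContDiffAt.contDiffWithinAt (ContDiffAt.clm_apply ?_ ?_)
  · refine ContDiffAt.fderiv (n := ∞) (f := fun (w : Pt × Pt) t => F (w.1, t)) ?_ contDiffAt_snd le_rfl
    have h : ContDiffAt ℝ ∞ F ((z, z.2).1.1, (z, z.2).2) :=
      hF.contDiffAt ((isOpen_box.prod isOpen_box).mem_nhds hz)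
    exact h.comp (z, z.2) ((contDiff_fst.fst.prodMk contDiff_snd).contDiffAt)
  · exact (hV.contDiffAt (isOpen_box.mem_nhds hz.2)).comp z contDiffAt_snd

theorem potChart_smooth {J : Amb N → MN N} (hJ : IsACS A J) {s : ℝ}
    (hpot : ∀ c₁ c₂, ContDiffOn ℝ ∞ (fun z : Pt × Pt => A.pot J s (A.psi c₁ z.1) (A.psi c₂ z.2))
      (box ×ˢ box))
    (c₀ c : Fin K) (i k : Fin 4) : ContDiffOn ℝ ∞ (A.potChart J s c₀ c i k) (box ×ˢ box) := by
  refine (hpot c₀ c).mul ?_
  have hV : ∀ k, ContDiffOn ℝ ∞ (fun q => A.jc J c q *ᵥ Pi.single k 1) box := fun k => by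
    refine contDiffOn_pi.2 fun a => ?_
    simp only [mulVec_single, MulOpposite.op_one, one_smul, Matrix.col_apply]
    exact hJ.smooth c a k
  have hg : ∀ k, ContDiffOn ℝ ∞ (fun z : Pt × Pt =>
      fderiv ℝ (fun t => A.pot J s (A.psi c₀ z.1) (A.psi c t)) z.2
        (A.jc J c z.2 *ᵥ Pi.single k 1)) (box ×ˢ box) := fun k => smooth_slice (hpot c₀ c) (hV k)
  exact ((smooth_slice (hg k) (contDiffOn_const (c := Pi.single i 1))).sub
    (smooth_slice (hg i) (contDiffOn_const (c := Pi.single k 1)))).neg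

theorem conj_single (B : Matrix (Fin 4) (Fin N) ℝ) (M : M4) :
    Bᵀ * M * B = ∑ i, ∑ k, M i k • (Bᵀ * Matrix.single i k (1 : ℝ) * B) := by
  conv_lhs => rw [matrix_eq_sum_single M]
  simp only [Matrix.mul_sum, Matrix.sum_mul]
  refine Finset.sum_congr rfl fun i _ => Finset.sum_congr rfl fun k _ => ?_
  rw [show Matrix.single i k (M i k) = M i k • Matrix.single i k (1 : ℝ) by simp, Matrix.mul_smul,
    Matrix.smul_mul]

theorem apply_eq_sum (ℓ : MN N →ₗ[ℝ] ℝ) (M : MN N) :
    ℓ M = ∑ a, ∑ b, M a b * ℓ (Matrix.single a b (1 : ℝ)) := by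
  conv_lhs => rw [matrix_eq_sum_single M]
  simp only [map_sum]
  refine Finset.sum_congr rfl fun a _ => Finset.sum_congr rfl fun b _ => ?_
  rw [← smul_eq_mul (M a b) (ℓ _), ← map_smul, Matrix.smul_single, smul_eq_mul, mul_one]

/-- The extension to the whole plane of a function on the product of two cubes. -/
noncomputable def extChartFun {p₀ : Pt} (b₀ : ContDiffBump p₀) (F : Pt × Pt → ℝ) (z : Pt × Pt) : ℝ :=
  b₀ z.1 * (⟨1 / 2, 3 / 4, by norm_num, by norm_num⟩ : ContDiffBump (0 : Pt)) z.2 * F z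

theorem extChartFun_smooth {p₀ : Pt} (b₀ : ContDiffBump p₀)
    (hb₀ : Metric.closedBall p₀ b₀.rOut ⊆ box) {F : Pt × Pt → ℝ}
    (hF : ContDiffOn ℝ ∞ F (box ×ˢ box)) : ContDiff ℝ ∞ (extChartFun b₀ F) := by
  set b : ContDiffBump (0 : Pt) := ⟨1 / 2, 3 / 4, by norm_num, by norm_num⟩
  refine contDiff_iff_contDiffAt.2 fun z => ?_
  have hs : ContDiff ℝ ∞ fun z : Pt × Pt => b₀ z.1 * b z.2 :=
    (b₀.contDiff.comp contDiff_fst).mul (b.contDiff.comp contDiff_snd)
  by_cases hz : z ∈ box ×ˢ box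
  · exact hs.contDiffAt.mul (hF.contDiffAt ((isOpen_box.prod isOpen_box).mem_nhds hz))
  · refine contDiffAt_const (c := (0 : ℝ)).congr_of_eventuallyEq ?_
    rcases not_and_or.1 hz with h | h
    · have h' : z.1 ∉ tsupport (b₀ : Pt → ℝ) := by
        rw [b₀.tsupport_eq]; exact fun h' => h (hb₀ h')
      filter_upwards [continuous_fst.continuousAt.preimage_mem_nhds
        ((isClosed_tsupport _).isOpen_compl.mem_nhds h')] with w hw
      simp [extChartFun, image_eq_zero_of_notMem_tsupport hw]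
    · have h' : z.2 ∉ tsupport (b : Pt → ℝ) := by
        rw [b.tsupport_eq]
        exact fun h' => h (Metric.closedBall_subset_ball (by norm_num : b.rOut < 1) h')
      filter_upwards [continuous_snd.continuousAt.preimage_mem_nhds
        ((isClosed_tsupport _).isOpen_compl.mem_nhds h')] with w hw
      show b₀ w.1 * b w.2 * F w = 0
      rw [image_eq_zero_of_notMem_tsupport hw, mul_zero, zero_mul]

theorem extChartFun_eq {p₀ : Pt} (b₀ : ContDiffBump p₀) (F : Pt × Pt → ℝ) {t q : Pt}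
    (ht : t ∈ Metric.ball p₀ b₀.rIn) (hq : q ∈ Metric.closedBall (0 : Pt) (1 / 2)) :
    extChartFun b₀ F (t, q) = F (t, q) := by
  simp only [extChartFun, b₀.one_of_mem_closedBall (Metric.ball_subset_closedBall ht)]
  rw [ContDiffBump.one_of_mem_closedBall _ hq, one_mul, one_mul]

/-- The chart expansion of the integrand. -/
theorem local_formula {J : Amb N → MN N} (s : ℝ) (ℓ : MN N →ₗ[ℝ] ℝ) (c₀ : Fin K) {p₀ : Pt}
    (b₀ : ContDiffBump p₀) {t : Pt} (ht : t ∈ Metric.ball p₀ b₀.rIn) {y : Amb N} (hy : y ∈ A.X) :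
    A.pot J s (A.psi c₀ t) y * ℓ (A.ddPot J s (A.psi c₀ t) y) =
      ∑ c, ∑ i, ∑ k, A.chi c y * ℓ ((A.L c)ᵀ * Matrix.single i k (1 : ℝ) * A.L c) *
        extChartFun b₀ (A.potChart J s c₀ c i k) (t, A.phi c y) := by
  have e : A.ddPot J s (A.psi c₀ t) y
      = ∑ c, A.chi c y • ((A.L c)ᵀ * A.ddChart J s c₀ c (t, A.phi c y) * A.L c) := rfl
  rw [e, map_sum, Finset.mul_sum]
  refine Finset.sum_congr rfl fun c _ => ?_
  rcases eq_or_ne (A.chi c y) 0 with h | h
  · simp [h]
  have hq : A.phi c y ∈ Metric.closedBall (0 : Pt) (1 / 2) := by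
    obtain ⟨p, hp, rfl⟩ := A.chi_supp c y hy h
    rwa [A.phi_psi c (closedBall_subset_box hp)]
  rw [map_smul, conj_single, map_sum]
  simp only [map_sum, map_smul, smul_eq_mul, Finset.mul_sum]
  refine Finset.sum_congr rfl fun i _ => Finset.sum_congr rfl fun k _ => ?_
  rw [extChartFun_eq b₀ _ ht hq, Atlas.potChart, A.psi_phi c (A.supp_box hy h)]
  ring

section avg

variable {Z : Type*} [MeasurableSpace Z] {κ : Measure Z} {pr : Z → A.X} {ℓ : Z → MN N →ₗ[ℝ] ℝ}

theorem integrable_weight (hpr : Measurable pr)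
    (hℓ : ∀ a b, Integrable (fun z => ℓ z (Matrix.single a b (1 : ℝ))) κ) (c : Fin K) (i k : Fin 4) :
    Integrable (fun z => A.chi c (pr z).1 * ℓ z ((A.L c)ᵀ * Matrix.single i k (1 : ℝ) * A.L c)) κ := by
  have h : Integrable (fun z => ℓ z ((A.L c)ᵀ * Matrix.single i k (1 : ℝ) * A.L c)) κ := by
    simp only [fun z => apply_eq_sum (ℓ z) ((A.L c)ᵀ * Matrix.single i k (1 : ℝ) * A.L c)]
    exact integrable_finsetSum _ fun a _ => integrable_finsetSum _ fun b _ => (hℓ a b).const_mul _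
  refine h.bdd_mul (c := 1) ((A.chi_cont c).measurable.comp
    (measurable_subtype_coe.comp hpr)).aestronglyMeasurable (ae_of_all _ fun z => ?_)
  rw [Real.norm_of_nonneg (A.chi_nonneg c _), ← A.chi_sum _ (pr z).2]
  exact Finset.single_le_sum (fun e _ => A.chi_nonneg e _) (Finset.mem_univ c)

/-- The averaged potential is smooth, and is differentiated under the integral. -/
theorem avgPot_diff {J : Amb N → MN N} (hJ : IsACS A J) {s : ℝ}
    (hpot : ∀ c₁ c₂, ContDiffOn ℝ ∞ (fun z : Pt × Pt => A.pot J s (A.psi c₁ z.1) (A.psi c₂ z.2))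
      (box ×ˢ box))
    (hpr : Measurable pr) (hℓ : ∀ a b, Integrable (fun z => ℓ z (Matrix.single a b (1 : ℝ))) κ) :
    IsFunX A (A.avgPot J s κ pr ℓ) ∧ ∀ c₀, ∀ p₀ ∈ box, ∀ v,
      Integrable (fun z => ℓ z (A.derMat J s c₀ p₀ v (pr z).1)) κ ∧
      fderiv ℝ (fun t => A.avgPot J s κ pr ℓ (A.psi c₀ t)) p₀ v
        = ∫ z, ℓ z (A.derMat J s c₀ p₀ v (pr z).1) ∂κ := by
  have key : ∀ c₀, ∀ p₀ ∈ box,
      ContDiffAt ℝ ∞ (fun t => A.avgPot J s κ pr ℓ (A.psi c₀ t)) p₀ ∧ ∀ v,
      Integrable (fun z => ℓ z (A.derMat J s c₀ p₀ v (pr z).1)) κ ∧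
      fderiv ℝ (fun t => A.avgPot J s κ pr ℓ (A.psi c₀ t)) p₀ v
        = ∫ z, ℓ z (A.derMat J s c₀ p₀ v (pr z).1) ∂κ := by
    intro c₀ p₀ hp₀
    obtain ⟨δ, hδ, hball⟩ := Metric.isOpen_iff.1 isOpen_box p₀ hp₀
    set b₀ : ContDiffBump p₀ := ⟨δ / 3, δ / 2, by positivity, by linarith⟩
    have hb₀ : Metric.closedBall p₀ b₀.rOut ⊆ box :=
      (Metric.closedBall_subset_ball (show δ / 2 < δ by linarith)).trans hball
    set G : Fin K × Fin 4 × Fin 4 → Pt × Pt → ℝ :=
      fun e => extChartFun b₀ (A.potChart J s c₀ e.1 e.2.1 e.2.2)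
    have hG : ∀ e, ContDiff ℝ ∞ (G e) := fun e =>
      extChartFun_smooth b₀ hb₀ (potChart_smooth A hJ hpot c₀ e.1 e.2.1 e.2.2)
    set w : Fin K × Fin 4 × Fin 4 → Z → ℝ := fun e z =>
      A.chi e.1 (pr z).1 * ℓ z ((A.L e.1)ᵀ * Matrix.single e.2.1 e.2.2 (1 : ℝ) * A.L e.1)
    have hw : ∀ e, Integrable (w e) κ := fun e => integrable_weight A hpr hℓ e.1 e.2.1 e.2.2
    set π : Fin K → Z → Pt := fun c z => A.phi c (pr z).1
    have hπ : ∀ c, Measurable (π c) := fun c =>
      (A.phi_cont c).measurable.comp (measurable_subtype_coe.comp hpr)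
    have hsupp : ∀ e, ∀ᵐ z ∂κ, w e z ≠ 0 → π e.1 z ∈ Metric.closedBall (0 : Pt) (1 / 2) := fun e =>
      ae_of_all _ fun z hz => by
        obtain ⟨p, hp, he⟩ := A.chi_supp e.1 _ (pr z).2 (left_ne_zero_of_mul hz)
        show A.phi e.1 (pr z).1 ∈ _
        rwa [← he, A.phi_psi e.1 (closedBall_subset_box hp)]
    have hK : IsCompact (Metric.closedBall (0 : Pt) (1 / 2)) := isCompact_closedBall _ _
    have hint : ∀ e t, Integrable (fun z => w e z • G e (t, π e.1 z)) κ := fun e t =>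
      integrable_carried (g := fun q => G e (t, q))
        ((hG e).continuous.comp (continuous_const.prodMk continuous_id)) (hw e) (hπ e.1) hK (hsupp e)
    have hform : ∀ t ∈ Metric.ball p₀ b₀.rIn, ∀ z,
        A.pot J s (A.psi c₀ t) (pr z).1 * ℓ z (A.ddPot J s (A.psi c₀ t) (pr z).1)
          = ∑ e, w e z • G e (t, π e.1 z) := fun t ht z => by
      rw [local_formula A s (ℓ z) c₀ b₀ ht (pr z).2, Fintype.sum_prod_type]
      refine Finset.sum_congr rfl fun c _ => ?_
      rw [Fintype.sum_prod_type]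
      rfl
    have hnhds : Metric.ball p₀ b₀.rIn ∈ 𝓝 p₀ := Metric.ball_mem_nhds _ b₀.rIn_pos
    have heq : (fun t => A.avgPot J s κ pr ℓ (A.psi c₀ t))
        =ᶠ[𝓝 p₀] fun t => ∑ e, ∫ z, w e z • G e (t, π e.1 z) ∂κ := by
      filter_upwards [hnhds] with t ht
      rw [← integral_finsetSum _ fun e _ => hint e t]
      exact integral_congr_ae (ae_of_all _ (hform t ht))
    have hd : ∀ e, ContDiff ℝ ∞ fun t => ∫ z, w e z • G e (t, π e.1 z) ∂κ := fun e =>
      contDiff_param (hG e) (hw e) (hπ e.1) hK (hsupp e)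
    refine ⟨((ContDiff.sum fun e _ => hd e).contDiffAt).congr_of_eventuallyEq heq, fun v => ?_⟩
    have hdz : ∀ e z, DifferentiableAt ℝ (fun t => w e z • G e (t, π e.1 z)) p₀ := fun e z =>
      ((((hG e).differentiable (by norm_num)).differentiableAt).comp p₀
        (differentiableAt_id.prodMk (differentiableAt_const _))).const_smul (w e z)
    have hintd : ∀ e, Integrable (fun z => w e z • fderiv ℝ (fun t => G e (t, π e.1 z)) p₀ v) κ := fun e => by
      refine integrable_carried (g := fun q => fderiv ℝ (fun t => G e (t, q)) p₀ v) ?_ (hw e) (hπ e.1) hK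
        (hsupp e)
      have h : ContDiff ℝ ∞ fun q => fderiv ℝ (fun t => G e (t, q)) p₀ :=
        ContDiff.fderiv (f := fun q t => G e (t, q)) ((hG e).comp (contDiff_snd.prodMk contDiff_fst))
          contDiff_const le_rfl
      exact (h.continuous).clm_apply continuous_const
    have hval : ∀ z, ℓ z (A.derMat J s c₀ p₀ v (pr z).1)
        = ∑ e, w e z • fderiv ℝ (fun t => G e (t, π e.1 z)) p₀ v := fun z => by
      have hent : ∀ a b, DifferentiableAt ℝ
          (fun t => A.pot J s (A.psi c₀ t) (pr z).1 * A.ddPot J s (A.psi c₀ t) (pr z).1 a b) p₀ := fun a b => by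
        let ev₁ : MN N →ₗ[ℝ] ℝ := (Matrix.entryLinearMap ℝ ℝ a b)
        refine DifferentiableAt.congr_of_eventuallyEq (f := fun t => ∑ c, ∑ i, ∑ k,
          A.chi c (pr z).1 * ev₁ ((A.L c)ᵀ * Matrix.single i k (1 : ℝ) * A.L c) * G (c, i, k) (t, π c z)) ?_ ?_
        · exact DifferentiableAt.fun_sum fun c _ => DifferentiableAt.fun_sum fun i _ =>
            DifferentiableAt.fun_sum fun k _ => ((((hG (c, i, k)).differentiable (by norm_num)).differentiableAt).comp p₀
              (differentiableAt_id.prodMk (differentiableAt_const _))).const_mul _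
        · filter_upwards [hnhds] with t ht
          exact local_formula A s ev₁ c₀ b₀ ht (pr z).2
      have hpt : (fun t => A.pot J s (A.psi c₀ t) (pr z).1 * ℓ z (A.ddPot J s (A.psi c₀ t) (pr z).1))
          =ᶠ[𝓝 p₀] fun t => ∑ e, w e z • G e (t, π e.1 z) :=
        eventually_of_mem hnhds fun t ht => hform t ht z
      have h1 := hpt.fderiv_eq (𝕜 := ℝ)
      rw [fderiv_fun_sum fun e _ => hdz e z] at h1
      have h2 := congrArg (fun f : Pt →L[ℝ] ℝ => f v) h1
      simp only [FunLike.coe_sum, Finset.sum_apply] at h2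
      have e3 : ∀ e, fderiv ℝ (fun t => w e z • G e (t, π e.1 z)) p₀ v
          = w e z • fderiv ℝ (fun t => G e (t, π e.1 z)) p₀ v := fun e => by
        exact DFunLike.congr_fun (fderiv_fun_const_smul (f := fun t => G e (t, π e.1 z))
          ((((hG e).differentiable (by norm_num)).differentiableAt).comp p₀
            (differentiableAt_id.prodMk (differentiableAt_const _))) (w e z)) v
      simp only [e3] at h2
      rw [← h2]
      have e4 : (fun t => A.pot J s (A.psi c₀ t) (pr z).1 * ℓ z (A.ddPot J s (A.psi c₀ t) (pr z).1))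
          = fun t => ∑ a, ∑ b, (A.pot J s (A.psi c₀ t) (pr z).1 * A.ddPot J s (A.psi c₀ t) (pr z).1 a b)
            * ℓ z (Matrix.single a b (1 : ℝ)) := by
        funext t
        rw [apply_eq_sum (ℓ z) (A.ddPot J s (A.psi c₀ t) (pr z).1), Finset.mul_sum]
        simp only [Finset.mul_sum, mul_assoc]
      rw [e4, fderiv_fun_sum (fun a _ => DifferentiableAt.fun_sum fun b _ => (hent a b).mul_const _),
        apply_eq_sum (ℓ z)]
      simp only [FunLike.coe_sum, Finset.sum_apply]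
      refine Finset.sum_congr rfl fun a _ => ?_
      rw [fderiv_fun_sum fun b _ => (hent a b).mul_const _]
      simp only [FunLike.coe_sum, Finset.sum_apply]
      refine Finset.sum_congr rfl fun b _ => ?_
      rw [fderiv_mul_const (hent a b)]
      simp [Atlas.derMat, mul_comm]
    have hi : Integrable (fun z => ℓ z (A.derMat J s c₀ p₀ v (pr z).1)) κ :=
      (integrable_finsetSum _ fun e _ => hintd e).congr (ae_of_all _ fun z => (hval z).symm)
    refine ⟨hi, ?_⟩
    rw [heq.fderiv_eq, fderiv_fun_sum fun e _ => ((hd e).differentiable (by norm_num)).differentiableAt]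
    simp only [FunLike.coe_sum, Finset.sum_apply]
    rw [integral_congr_ae (ae_of_all _ hval), integral_finsetSum _ fun e _ => hintd e]
    exact Finset.sum_congr rfl fun e _ =>
      fderiv_param_apply (hG e) (hw e) (hπ e.1) hK (hsupp e) p₀ v
  exact ⟨fun c₀ t ht => (key c₀ t ht).1.contDiffWithinAt, fun c₀ p₀ hp₀ => (key c₀ p₀ hp₀).2⟩

end avg

end Vale.Agent.P204.General
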