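import Mathlib
import Vale.Agent.P204.General.Closed.Data
import Vale.Agent.P204.General.Closed.Forms

/-!
# P204 on a closed four-manifold: pairing forms with atoms and with the regular part
-/

open MeasureTheory Matrix Filter Set
open scoped ContDiff Topology

namespace Vale.Agent.P204.General

open Vale.Agent.P204.Torus Vale.Agent.P204.Est

variable {N K : ℕ} (A : Atlas N K)

/-- The pairing with an atom. -/
noncomputable def Atlas.lineMap (J : Amb N → MN N) (p : A.unitTan) : MN N →ₗ[ℝ] ℝ where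
  toFun M := p.1.2 ⬝ᵥ (M *ᵥ (J p.1.1 *ᵥ p.1.2))
  map_add' M M' := by rw [add_mulVec, dotProduct_add]
  map_smul' t M := by rw [smul_mulVec, dotProduct_smul]; rfl

/-- The pairing with the regular part. -/
noncomputable def Atlas.wedgeMap (ρ : Amb N → MN N) (y : A.X) : MN N →ₗ[ℝ] ℝ where
  toFun M := A.wedgePt y.1 (ρ y.1) M
  map_add' M M' := A.wedgePt_add_right _ _ _ _
  map_smul' t M := by rw [A.wedgePt_comm, A.wedgePt_smul_left, A.wedgePt_comm]; rfl

variable {A}

theorem abs_unit_le {v : Amb N} (h : v ⬝ᵥ v = 1) : ‖v‖ ≤ 1 :=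
  (pi_norm_le_iff_of_nonneg zero_le_one).2 fun k => by
    have h1 : v k * v k ≤ v ⬝ᵥ v :=
      Finset.single_le_sum (f := fun k => v k * v k) (fun k _ => mul_self_nonneg _) (Finset.mem_univ k)
    rw [h] at h1
    rw [Real.norm_eq_abs]
    exact (sq_le_one_iff_abs_le_one _).1 (by rw [sq]; exact h1)

theorem continuous_Jv {J : Amb N → MN N} (hJ : IsACS A J) :
    Continuous fun p : A.unitTan => J p.1.1 *ᵥ p.1.2 := by
  refine continuous_pi fun a => ?_
  show Continuous fun p : A.unitTan => ∑ b, J p.1.1 a b * p.1.2 b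
  exact continuous_finsetSum _ fun b _ => ((continuous_J_entry hJ a b).comp continuous_ptX).mul
    ((continuous_apply b).comp (continuous_snd.comp continuous_subtype_val))

theorem exists_bound_of_continuous {Z : Type*} [TopologicalSpace Z] [CompactSpace Z] {f : Z → ℝ}
    (hf : Continuous f) : ∃ B, 0 ≤ B ∧ ∀ z, |f z| ≤ B := by
  obtain ⟨B, hB⟩ := isCompact_univ.exists_bound_of_continuousOn hf.continuousOn
  exact ⟨max B 0, le_max_right _ _, fun z => (hB z trivial).trans (le_max_left _ _)⟩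

theorem lineMap_integrable {J : Amb N → MN N} (hJ : IsACS A J) {m : Measure (Amb N × Amb N)}
    [IsFiniteMeasure m] (a b : Fin N) :
    Integrable (fun p => A.lineMap J p (Matrix.single a b (1 : ℝ))) (A.atomsM m) := by
  have : CompactSpace A.unitTan := isCompact_iff_compactSpace.1 A.isCompact_unitTan
  have hc : Continuous fun p : A.unitTan => A.lineMap J p (Matrix.single a b (1 : ℝ)) := by
    show Continuous fun p : A.unitTan =>
      ∑ i, p.1.2 i * ∑ k, Matrix.single a b (1 : ℝ) i k * (J p.1.1 *ᵥ p.1.2) k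
    exact continuous_finsetSum _ fun i _ =>
      ((continuous_apply i).comp (continuous_snd.comp continuous_subtype_val)).mul
        (continuous_finsetSum _ fun k _ => continuous_const.mul ((continuous_apply k).comp (continuous_Jv hJ)))
  obtain ⟨B, -, hB⟩ := exists_bound_of_continuous hc
  exact Integrable.of_bound hc.aestronglyMeasurable B (ae_of_all _ fun p => hB p)

theorem exists_single_sN (a b : Fin N) :
    ∃ B, ∀ y ∈ A.X, Real.sqrt (A.sqX y (Matrix.single a b (1 : ℝ))) ≤ B := by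
  have hc : Continuous fun y : Amb N => A.sN y (Matrix.single a b (1 : ℝ)) :=
    A.sN_cont continuous_id fun _ _ => continuous_const
  obtain ⟨B, hB⟩ := A.compact.exists_bound_of_continuousOn hc.continuousOn
  exact ⟨B, fun y hy => by rw [A.sqrt_sqX]; exact (le_abs_self _).trans (hB y hy)⟩

theorem wedgeMap_integrable {ρ : Amb N → MN N} (hρ : ∀ a b, Measurable fun x => ρ x a b) {Cb : ℝ}
    (hw : ∀ x ∈ A.X, ∀ M M', |A.wedgePt x M M'| ≤ Cb * Real.sqrt (A.sqX x M) * Real.sqrt (A.sqX x M'))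
    (hint : Integrable (fun y : A.X => Real.sqrt (A.sqX y.1 (ρ y.1))) A.cellsM) (a b : Fin N) :
    Integrable (fun y => A.wedgeMap ρ y (Matrix.single a b (1 : ℝ))) A.cellsM := by
  obtain ⟨B, hB⟩ := exists_single_sN (A := A) a b
  have hm : Measurable fun y : A.X => A.wedgePt y.1 (ρ y.1) (Matrix.single a b (1 : ℝ)) :=
    measurable_wedgePt measurable_subtype_coe (fun a b => (hρ a b).comp measurable_subtype_coe)
      fun _ _ => measurable_const
  refine Integrable.mono' (hint.const_mul (|Cb| * |B|)) hm.aestronglyMeasurable (ae_of_all _ fun y => ?_)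
  rw [Real.norm_eq_abs]
  refine (hw y.1 y.2 _ _).trans ?_
  rw [mul_right_comm]
  exact mul_le_mul_of_nonneg_right (mul_le_mul (le_abs_self _) ((hB y.1 y.2).trans (le_abs_self _))
    (Real.sqrt_nonneg _) (abs_nonneg _)) (Real.sqrt_nonneg _)

theorem continuous_line {J : Amb N → MN N} (hJ : IsACS A J) {a : Amb N → MN N} (ha : IsTestX A a) :
    Continuous fun p : A.unitTan => A.lineMap J p (a p.1.1) := Atlas.cont_line hJ ha

theorem measurable_wedge_test {ρ : Amb N → MN N} (hρ : ∀ a b, Measurable fun x => ρ x a b)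
    {a : Amb N → MN N} (ha : IsTestX A a) :
    Measurable fun y : A.X => A.wedgePt y.1 (ρ y.1) (a y.1) := by
  set P := fun (d : Fin K) (y : A.X) => A.pullAt d (ρ y.1) (A.phi d y.1)
  set Q := fun (d : Fin K) (i k : Fin 4) (y : A.X) => A.chi d y.1 * A.pull d a (A.phi d y.1) i k
  have hP : ∀ d i k, Measurable fun y => P d y i k := fun d =>
    measurable_pull (A := A) d measurable_subtype_coe fun a b => (hρ a b).comp measurable_subtype_coe
  have hQ : ∀ d i k, Measurable (Q d i k) := fun d i k =>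
    ((A.continuousOn_term d (F := fun p => A.pull d a p i k) (ha.smooth d i k).continuousOn).domRestrict).measurable
  have hdens : ∀ d, Continuous (A.dens d) := fun d => by
    refine continuous_finsetSum _ fun c _ => ((A.chi_cont c).comp (A.psi_cont d)).mul
      (Continuous.matrix_det (continuous_matrix fun i k => ?_))
    simp only [Matrix.mul_apply]
    exact continuous_finsetSum _ fun a _ => continuous_const.mul (A.dmat_cont d a k)
  have e : ∀ y : A.X, A.wedgePt y.1 (ρ y.1) (a y.1) = ∑ d, (P d y 0 1 * Q d 2 3 y - P d y 0 2 * Q d 1 3 y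
      + P d y 0 3 * Q d 1 2 y + P d y 1 2 * Q d 0 3 y - P d y 1 3 * Q d 0 2 y + P d y 2 3 * Q d 0 1 y)
      / A.dens d (A.phi d y.1) := fun y => by
    refine Finset.sum_congr rfl fun d _ => ?_
    rcases eq_or_ne (A.chi d y.1) 0 with h | h
    · simp [P, Q, h]
    · have hh : A.pullAt d (a y.1) (A.phi d y.1) = A.pull d a (A.phi d y.1) := by
        rw [Atlas.pull, A.psi_phi d (A.supp_box y.2 h)]
      simp only [P, Q, wedge, hh]
      ring
  simp only [e]
  refine Finset.measurable_fun_sum _ fun d _ => Measurable.div ?_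
    ((hdens d).measurable.comp ((A.phi_cont d).measurable.comp measurable_subtype_coe))
  exact (((((hP d 0 1).mul (hQ d 2 3)).sub ((hP d 0 2).mul (hQ d 1 3))).add
    ((hP d 0 3).mul (hQ d 1 2))).add ((hP d 1 2).mul (hQ d 0 3))).sub
      ((hP d 1 3).mul (hQ d 0 2)) |>.add ((hP d 2 3).mul (hQ d 0 1))

theorem exists_test_size {a : Amb N → MN N} (ha : IsTestX A a) :
    ∃ B, 0 ≤ B ∧ ∀ y ∈ A.X, Real.sqrt (A.sqX y (a y)) ≤ B := by
  have hterm : ∀ c, ContinuousOn
      (fun y => A.chi c y * sq2 (A.pull c a (A.phi c y))) A.X := fun c =>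
    A.continuousOn_term c (F := fun p => sq2 (A.pull c a p))
      (continuousOn_finsetSum _ fun i _ => continuousOn_finsetSum _ fun k _ =>
        ((ha.smooth c i k).continuousOn).pow 2)
  obtain ⟨B, hB⟩ := A.compact.exists_bound_of_continuousOn (continuousOn_finsetSum _ fun c _ => hterm c)
  refine ⟨Real.sqrt |B|, Real.sqrt_nonneg _, fun y hy => Real.sqrt_le_sqrt ?_⟩
  have e : A.sqX y (a y) = ∑ c, A.chi c y * sq2 (A.pull c a (A.phi c y)) :=
    Finset.sum_congr rfl fun c _ => by
      rcases eq_or_ne (A.chi c y) 0 with h | h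
      · simp [h]
      · rw [Atlas.pull, A.psi_phi c (A.supp_box hy h)]
  rw [e]
  exact (le_abs_self _).trans ((hB y hy).trans (le_abs_self B))

theorem wedge_test_integrable {ρ : Amb N → MN N} (hρ : ∀ a b, Measurable fun x => ρ x a b) {Cb : ℝ}
    (hw : ∀ x ∈ A.X, ∀ M M', |A.wedgePt x M M'| ≤ Cb * Real.sqrt (A.sqX x M) * Real.sqrt (A.sqX x M'))
    (hint : Integrable (fun y : A.X => Real.sqrt (A.sqX y.1 (ρ y.1))) A.cellsM)
    {a : Amb N → MN N} (ha : IsTestX A a) :
    Integrable (fun y : A.X => A.wedgePt y.1 (ρ y.1) (a y.1)) A.cellsM := by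
  obtain ⟨B, hB0, hB⟩ := exists_test_size ha
  refine Integrable.mono' (hint.const_mul (|Cb| * B)) (measurable_wedge_test hρ ha).aestronglyMeasurable
    (ae_of_all _ fun y => ?_)
  rw [Real.norm_eq_abs]
  refine (hw y.1 y.2 _ _).trans ?_
  rw [mul_right_comm]
  exact mul_le_mul_of_nonneg_right (mul_le_mul (le_abs_self _) (hB y.1 y.2) (Real.sqrt_nonneg _) (abs_nonneg _))
    (Real.sqrt_nonneg _)

/-- A smooth one-form is bounded on tangent vectors. -/
theorem exists_oneX_bound {b : Amb N → Amb N} (hb : IsOneX A b) :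
    ∃ B, 0 ≤ B ∧ ∀ y v, A.IsTan y v → |b y ⬝ᵥ v| ≤ B * ‖v‖ := by
  have hS : IsCompact (Metric.closedBall (0 : Pt) (1 / 2)) := isCompact_closedBall _ _
  choose T hT using fun c k => hS.exists_bound_of_continuousOn
    (((hb c k).continuousOn).mono closedBall_subset_box)
  set l := fun c => ‖(Matrix.mulVecLin (A.L c)).toContinuousLinearMap‖
  refine ⟨∑ c, ∑ k, |T c k| * l c, by positivity, fun y v hv => ?_⟩
  obtain ⟨c, -, p, hp, rfl⟩ := A.exists_chart (A.mem_of_isTan hv)
  have hpb := closedBall_subset_box hp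
  have hu := A.tan_in_chart hv c ⟨p, hpb, rfl⟩
  rw [A.phi_psi c hpb] at hu
  have e : b (A.psi c p) ⬝ᵥ v = A.pullOne c b p ⬝ᵥ (A.L c *ᵥ v) := by
    conv_lhs => rw [← hu, dotProduct_mulVec, ← mulVec_transpose]
    rfl
  rw [e, dotProduct]
  refine (Finset.abs_sum_le_sum_abs _ _).trans ((Finset.sum_le_sum
    (g := fun k => |T c k| * l c * ‖v‖) fun k _ => ?_).trans ?_)
  · rw [abs_mul, mul_assoc]
    refine mul_le_mul ((hT c k p hp).trans (le_abs_self _)) ?_ (abs_nonneg _) (abs_nonneg _)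
    refine ((Real.norm_eq_abs _).symm.trans_le (norm_le_pi_norm (A.L c *ᵥ v) k)).trans ?_
    exact (Matrix.mulVecLin (A.L c)).toContinuousLinearMap.le_opNorm v
  · rw [← Finset.sum_mul]
    exact mul_le_mul_of_nonneg_right (Finset.single_le_sum (f := fun c => ∑ k, |T c k| * l c)
      (fun c _ => by positivity) (Finset.mem_univ c)) (norm_nonneg v)

/-- The wedge product of two covectors is small when one of them is small on tangent vectors. -/
theorem exists_wedgeOne_size {b : Amb N → Amb N} (hb : IsOneX A b) :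
    ∃ B, 0 ≤ B ∧ ∀ y ∈ A.X, ∀ (u : Amb N) (Φ : ℝ), 0 ≤ Φ →
      (∀ v, A.IsTan y v → |u ⬝ᵥ v| ≤ Φ * ‖v‖) →
      Real.sqrt (A.sqX y (wedgeOne u (b y))) ≤ B * Φ := by
  obtain ⟨Bb, hBb0, hBb⟩ := exists_oneX_bound hb
  have hS : IsCompact (Metric.closedBall (0 : Pt) (1 / 2)) := isCompact_closedBall _ _
  choose T hT using fun c i => hS.exists_bound_of_continuousOn
    ((continuous_pi fun a => A.dmat_cont c a i).continuousOn (s := Metric.closedBall (0 : Pt) (1 / 2)))
  set D := ∑ c, ∑ i, |T c i|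
  refine ⟨8 * (Bb * D ^ 2), by positivity, fun y hy u Φ hΦ hu => ?_⟩
  rw [← Real.sqrt_sq (by positivity : 0 ≤ 8 * (Bb * D ^ 2) * Φ)]
  refine Real.sqrt_le_sqrt ?_
  have hc : ∀ c, A.chi c y * sq2 (A.pullAt c (wedgeOne u (b y)) (A.phi c y))
      ≤ A.chi c y * (8 * (Bb * D ^ 2) * Φ) ^ 2 := fun c => by
    rcases eq_or_ne (A.chi c y) 0 with h | h
    · simp [h]
    refine mul_le_mul_of_nonneg_left ?_ (A.chi_nonneg _ _)
    obtain ⟨p, hp, rfl⟩ := A.chi_supp c y hy h
    have hpb := closedBall_subset_box hp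
    rw [A.phi_psi c hpb, A.pullAt_wedgeOne]
    set e := fun i : Fin 4 => A.dmat c p *ᵥ Pi.single i 1
    have hen : ∀ i, ‖e i‖ ≤ D := fun i => by
      have : e i = fun a => A.dmat c p a i := by funext a; simp [e, Matrix.col]
      rw [this]
      refine (hT c i p hp).trans ((le_abs_self _).trans ?_)
      exact (Finset.single_le_sum (f := fun i => |T c i|) (fun _ _ => abs_nonneg _) (Finset.mem_univ i)).trans
        (Finset.single_le_sum (f := fun c => ∑ i, |T c i|) (fun _ _ => by positivity) (Finset.mem_univ c))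
    have hcomp : ∀ (w : Amb N) i, ((A.dmat c p)ᵀ *ᵥ w) i = w ⬝ᵥ e i := fun w i => by
      show _ = w ⬝ᵥ (A.dmat c p *ᵥ Pi.single i 1)
      rw [dotProduct_mulVec, ← mulVec_transpose, dotProduct_single, mul_one]
    have hU : ∀ i, |((A.dmat c p)ᵀ *ᵥ u) i| ≤ Φ * D := fun i => by
      rw [hcomp]
      exact (hu _ (A.isTan_dmat c hpb _)).trans (mul_le_mul_of_nonneg_left (hen i) hΦ)
    have hV : ∀ i, |((A.dmat c p)ᵀ *ᵥ b (A.psi c p)) i| ≤ Bb * D := fun i => by
      rw [hcomp]
      exact (hBb _ _ (A.isTan_dmat c hpb _)).trans (mul_le_mul_of_nonneg_left (hen i) hBb0)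
    have hik : ∀ i k, (wedgeOne ((A.dmat c p)ᵀ *ᵥ u) ((A.dmat c p)ᵀ *ᵥ b (A.psi c p)) i k) ^ 2
        ≤ (2 * (Bb * D ^ 2) * Φ) ^ 2 := fun i k => by
      rw [← sq_abs, wedgeOne_apply]
      refine pow_le_pow_left₀ (abs_nonneg _) ((abs_sub _ _).trans ?_) 2
      rw [abs_mul, abs_mul]
      have h1 := mul_le_mul (hU i) (hV k) (abs_nonneg _) ((abs_nonneg _).trans (hU i))
      have h2 := mul_le_mul (hV i) (hU k) (abs_nonneg _) ((abs_nonneg _).trans (hV i))
      nlinarith
    refine (Finset.sum_le_sum fun i _ => Finset.sum_le_sum fun k _ => hik i k).trans_eq ?_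
    simp
    ring
  refine (Finset.sum_le_sum fun c _ => hc c).trans_eq ?_
  rw [← Finset.sum_mul, A.chi_sum y hy, one_mul]

end Vale.Agent.P204.General
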