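import Mathlib
import Vale.Agent.P204.General.Closed.Pair
import Vale.Agent.P204.General.Closed.Diff

/-!
# P204 on a closed four-manifold: the differential of the averaged potential
-/

open MeasureTheory Matrix Filter Set
open scoped ContDiff Topology

namespace Vale.Agent.P204.General

open Vale.Agent.P204.Torus Vale.Agent.P204.Est

variable {N K : ℕ} (A : Atlas N K)

/-- The averaged potential, divided by the logarithm of the scale. -/
noncomputable def Atlas.avgF (J : Amb N → MN N) (m : Measure (Amb N × Amb N)) (ρ : Amb N → MN N)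
    (s : ℝ) (x : Amb N) : ℝ :=
  (A.avgPot J s (A.atomsM m) A.ptX (A.lineMap J) x + A.avgPot J s A.cellsM id (A.wedgeMap ρ) x)
    / Real.log (1 / s)

variable {A}

theorem sqrt_dot_le (u : Amb N) :
    Real.sqrt (u ⬝ᵥ u) ≤ (Real.sqrt N + 1) * ‖u‖ := by
  have h : u ⬝ᵥ u ≤ (N : ℝ) * ‖u‖ ^ 2 := by
    refine (Finset.sum_le_sum (g := fun _ => ‖u‖ ^ 2) fun k _ => ?_).trans_eq (by simp)
    have := norm_le_pi_norm u k
    rw [Real.norm_eq_abs] at this
    calc u k * u k = |u k| ^ 2 := by rw [sq_abs]; ring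
      _ ≤ ‖u‖ ^ 2 := pow_le_pow_left₀ (abs_nonneg _) this 2
  refine (Real.sqrt_le_sqrt h).trans ?_
  rw [Real.sqrt_mul (Nat.cast_nonneg N), Real.sqrt_sq (norm_nonneg u)]
  nlinarith [norm_nonneg u]

variable {J : Amb N → MN N} {m : Measure (Amb N × Amb N)} [IsFiniteMeasure m] {ρ : Amb N → MN N}
  {Cb : ℝ}

/-- The differential, with an exact form subtracted. -/
theorem deriv_identity (hJ : IsACS A J) {s : ℝ}
    (hpot : ∀ c₁ c₂, ContDiffOn ℝ ∞ (fun z : Pt × Pt => A.pot J s (A.psi c₁ z.1) (A.psi c₂ z.2))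
      (box ×ˢ box))
    (hρ : ∀ a b, Measurable fun x => ρ x a b)
    (hw : ∀ x ∈ A.X, ∀ M M', |A.wedgePt x M M'| ≤ Cb * Real.sqrt (A.sqX x M) * Real.sqrt (A.sqX x M'))
    (hint : Integrable (fun y : A.X => Real.sqrt (A.sqX y.1 (ρ y.1))) A.cellsM)
    (hkill : ∀ a, IsClosedX A a → (∫ p, A.lineMap J p (a p.1.1) ∂(A.atomsM m))
      + ∫ y : A.X, A.wedgePt y.1 (ρ y.1) (a y.1) ∂A.cellsM = 0) (hL : 0 < Real.log (1 / s)) :
    IsFunX A (A.avgF J m ρ s) ∧ ∀ c₀, ∀ p₀ ∈ box, ∀ v, ∀ D, IsClosedX A D →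
      fderiv ℝ (fun w => A.avgF J m ρ s (A.psi c₀ w)) p₀ v * Real.log (1 / s)
        = (∫ p, A.lineMap J p (A.derMat J s c₀ p₀ v p.1.1 - D p.1.1) ∂(A.atomsM m))
          + ∫ y, A.wedgeMap ρ y (A.derMat J s c₀ p₀ v y.1 - D y.1) ∂A.cellsM := by
  obtain ⟨hfa, hda⟩ := avgPot_diff A hJ hpot (continuous_ptX.measurable)
    (fun a b => lineMap_integrable (m := m) hJ a b)
  obtain ⟨hfc, hdc⟩ := avgPot_diff A hJ hpot (ℓ := A.wedgeMap ρ) (pr := id) measurable_id
    (fun a b => wedgeMap_integrable hρ hw hint a b)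
  refine ⟨fun c => ((hfa c).add (hfc c)).div_const _, fun c₀ p₀ hp₀ v D hD => ?_⟩
  obtain ⟨ia, hva⟩ := hda c₀ p₀ hp₀ v
  obtain ⟨ic, hvc⟩ := hdc c₀ p₀ hp₀ v
  have : CompactSpace A.unitTan := isCompact_iff_compactSpace.1 A.isCompact_unitTan
  have iD : Integrable (fun p => A.lineMap J p (D p.1.1)) (A.atomsM m) := by
    obtain ⟨b, -, hb⟩ := exists_bound_of_continuous (continuous_line hJ hD.toIsTestX)
    exact Integrable.of_bound (continuous_line hJ hD.toIsTestX).aestronglyMeasurable b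
      (ae_of_all _ fun z => hb z)
  have iD' : Integrable (fun y : A.X => A.wedgePt y.1 (ρ y.1) (D y.1)) A.cellsM :=
    wedge_test_integrable hρ hw hint hD.toIsTestX
  have hd1 := ((hfa c₀).differentiableOn (by norm_num)).differentiableAt (isOpen_box.mem_nhds hp₀)
  have hd2 := ((hfc c₀).differentiableOn (by norm_num)).differentiableAt (isOpen_box.mem_nhds hp₀)
  set L := Real.log (1 / s)
  have e2 : (fun w => A.avgF J m ρ s (A.psi c₀ w)) = fun w =>
      (A.avgPot J s (A.atomsM m) A.ptX (A.lineMap J) (A.psi c₀ w)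
        + A.avgPot J s A.cellsM id (A.wedgeMap ρ) (A.psi c₀ w)) * L⁻¹ := by
    funext w; rw [Atlas.avgF, div_eq_mul_inv]
  rw [e2, fderiv_mul_const (hd1.fun_add hd2), fderiv_fun_add hd1 hd2]
  simp only [_root_.smul_apply, _root_.add_apply, smul_eq_mul, hva, hvc]
  simp only [map_sub]
  have ia' : Integrable (fun p => A.lineMap J p (A.derMat J s c₀ p₀ v p.1.1)) (A.atomsM m) := ia
  have ic' : Integrable (fun y : A.X => A.wedgeMap ρ y (A.derMat J s c₀ p₀ v y.1)) A.cellsM := ic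
  have id' : Integrable (fun y : A.X => A.wedgeMap ρ y (D y.1)) A.cellsM := iD'
  rw [integral_sub ia' iD, integral_sub ic' id']
  have hk := hkill D hD
  rw [mul_comm L⁻¹, mul_assoc, inv_mul_cancel₀ hL.ne', mul_one]
  have e3 : ∫ y, A.wedgeMap ρ y (D y.1) ∂A.cellsM = ∫ y : A.X, A.wedgePt y.1 (ρ y.1) (D y.1) ∂A.cellsM := rfl
  rw [e3]
  simp only [id, Atlas.ptX]
  linarith

/-- The regularised distance to the atoms from a point is continuous. -/
theorem continuous_regAtom (x : A.X) (s : ℝ) :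
    Continuous fun p => regD (A.distX x (A.ptX p)) s := by
  show Continuous fun p => Real.sqrt (A.distX x (A.ptX p) ^ 2 + s ^ 2)
  exact (((continuous_distX.comp (continuous_const.prodMk continuous_ptX)).pow 2).add
    continuous_const).sqrt

theorem integrable_atom [CompactSpace A.unitTan] {f : A.unitTan → ℝ} (hf : Continuous f) :
    Integrable f (A.atomsM m) := by
  obtain ⟨b, -, hb⟩ := exists_bound_of_continuous hf
  exact Integrable.of_bound hf.aestronglyMeasurable b (ae_of_all _ fun z => hb z)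

/-- The fine bound on atoms, after rescaling the direction. -/
theorem atom_fine [CompactSpace A.unitTan] (hJ : IsACS A J) {s : ℝ} (hs : 0 < s) (x : A.X) (u : Amb N) {t q C : ℝ}
    (ht : 0 < t) (hq : 1 ≤ q) (htu : t ≤ q * ‖u‖) (hC : 0 ≤ C) (f : A.unitTan → ℝ)
    (hf : ∀ p : A.unitTan, |f p| ≤ C * (A.rtX J x p * (t⁻¹ * Real.sqrt (A.offX J p.1.1 p.1.2 u))
          / regD (A.distX x (A.ptX p)) s ^ 4
        + A.rtX J x p / regD (A.distX x (A.ptX p)) s ^ 3
        + t⁻¹ * Real.sqrt (A.offX J p.1.1 p.1.2 u) / regD (A.distX x (A.ptX p)) s ^ 2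
        + 1 / regD (A.distX x (A.ptX p)) s)) :
    t * |∫ p, f p ∂(A.atomsM m)| ≤ C * q *
      ∫ p, (A.rtX J x p * Real.sqrt (A.offX J p.1.1 p.1.2 u) / regD (A.distX x (A.ptX p)) s ^ 4
              + ‖u‖ * (A.rtX J x p / regD (A.distX x (A.ptX p)) s ^ 3)
              + Real.sqrt (A.offX J p.1.1 p.1.2 u) / regD (A.distX x (A.ptX p)) s ^ 2
              + ‖u‖ * (1 / regD (A.distX x (A.ptX p)) s)) ∂(A.atomsM m) := by
  have hRc := continuous_regAtom (A := A) x s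
  have hR : ∀ p : A.unitTan, 0 < regD (A.distX x (A.ptX p)) s := fun p => regD_pos _ hs
  have hoc : Continuous fun p : A.unitTan => Real.sqrt (A.offX J p.1.1 p.1.2 u) :=
    ((Atlas.offX_continuous hJ).comp
      ((continuous_id (X := A.unitTan)).prodMk (continuous_const (y := u)))).sqrt
  have hrc : Continuous fun p : A.unitTan => A.rtX J x p :=
    Continuous.comp (g := fun z : A.X × A.unitTan => A.rtX J z.1 z.2)
      (f := fun p : A.unitTan => (x, p)) (continuous_rtX (A := A) hJ)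
      ((continuous_const (y := x)).prodMk continuous_id)
  have c1 : Continuous fun p : A.unitTan =>
      A.rtX J x p * Real.sqrt (A.offX J p.1.1 p.1.2 u) / regD (A.distX x (A.ptX p)) s ^ 4 :=
    (hrc.mul hoc).div (hRc.pow 4) fun p => (pow_pos (hR p) 4).ne'
  have c2 : Continuous fun p : A.unitTan => ‖u‖ * (A.rtX J x p / regD (A.distX x (A.ptX p)) s ^ 3) :=
    continuous_const.mul (hrc.div (hRc.pow 3) fun p => (pow_pos (hR p) 3).ne')
  have c3 : Continuous fun p : A.unitTan =>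
      Real.sqrt (A.offX J p.1.1 p.1.2 u) / regD (A.distX x (A.ptX p)) s ^ 2 :=
    hoc.div (hRc.pow 2) fun p => (pow_pos (hR p) 2).ne'
  have c4 : Continuous fun p : A.unitTan => ‖u‖ * (1 / regD (A.distX x (A.ptX p)) s) :=
    continuous_const.mul (continuous_const.div hRc fun p => (hR p).ne')
  have hGi : Integrable (fun p : A.unitTan =>
      A.rtX J x p * Real.sqrt (A.offX J p.1.1 p.1.2 u) / regD (A.distX x (A.ptX p)) s ^ 4
        + ‖u‖ * (A.rtX J x p / regD (A.distX x (A.ptX p)) s ^ 3)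
        + Real.sqrt (A.offX J p.1.1 p.1.2 u) / regD (A.distX x (A.ptX p)) s ^ 2
        + ‖u‖ * (1 / regD (A.distX x (A.ptX p)) s)) (A.atomsM m) :=
    integrable_atom (((c1.add c2).add c3).add c4)
  rw [← abs_of_pos ht, ← abs_mul, ← integral_const_mul, ← integral_const_mul]
  refine abs_integral_le_integral_abs.trans (integral_mono_of_nonneg (ae_of_all _ fun _ => abs_nonneg _)
    (hGi.const_mul _) (ae_of_all _ fun p => ?_))
  show |t * f p| ≤ _
  rw [abs_mul, abs_of_pos ht]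
  refine (mul_le_mul_of_nonneg_left (hf p) ht.le).trans ?_
  have hr : 0 ≤ A.rtX J x p := Real.sqrt_nonneg _
  have ho : 0 ≤ Real.sqrt (A.offX J p.1.1 p.1.2 u) := Real.sqrt_nonneg _
  have hRp := hR p
  set r := A.rtX J x p
  set o := Real.sqrt (A.offX J p.1.1 p.1.2 u)
  set R := regD (A.distX x (A.ptX p)) s
  show t * (C * _) ≤ C * q * _
  rw [mul_left_comm, mul_assoc C q]
  refine mul_le_mul_of_nonneg_left ?_ hC
  show t * (r * (t⁻¹ * o) / R ^ 4 + r / R ^ 3 + t⁻¹ * o / R ^ 2 + 1 / R)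
    ≤ q * (r * o / R ^ 4 + ‖u‖ * (r / R ^ 3) + o / R ^ 2 + ‖u‖ * (1 / R))
  have e : t * (r * (t⁻¹ * o) / R ^ 4 + r / R ^ 3 + t⁻¹ * o / R ^ 2 + 1 / R)
      = r * o / R ^ 4 + t * (r / R ^ 3) + o / R ^ 2 + t * (1 / R) := by field_simp
  rw [e]
  have h1 : r * o / R ^ 4 ≤ q * (r * o / R ^ 4) := le_mul_of_one_le_left (by positivity) hq
  have h2 : o / R ^ 2 ≤ q * (o / R ^ 2) := le_mul_of_one_le_left (by positivity) hq
  have h3 : t * (r / R ^ 3) ≤ q * ‖u‖ * (r / R ^ 3) := mul_le_mul_of_nonneg_right htu (by positivity)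
  have h4 : t * (1 / R) ≤ q * ‖u‖ * (1 / R) := mul_le_mul_of_nonneg_right htu (by positivity)
  linarith

/-- A crude bound by an integrable majorant. -/
theorem crude_bound {Z : Type*} [MeasurableSpace Z] {κ : Measure Z} {f g : Z → ℝ} {t a C : ℝ}
    (ht : 0 < t) (hta : t ≤ a) (hg : Integrable g κ)
    (hf : ∀ z, |f z| ≤ C * g z) : t * |∫ z, f z ∂κ| ≤ C * a * ∫ z, g z ∂κ := by
  refine (mul_le_mul hta (abs_integral_le_integral_abs.trans (integral_mono_of_nonneg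
    (ae_of_all _ fun _ => abs_nonneg _) (hg.const_mul C) (ae_of_all _ hf))) (abs_nonneg _)
    (ht.le.trans hta)).trans_eq ?_
  rw [integral_const_mul]; ring

/-- The two bounds on the differential of the averaged potential. -/
theorem exists_deriv_bound (hJ : IsACS A J) (hT : TestStmt)
    (hρ : ∀ a b, Measurable fun x => ρ x a b)
    (hw : ∀ x ∈ A.X, ∀ M M', |A.wedgePt x M M'| ≤ Cb * Real.sqrt (A.sqX x M) * Real.sqrt (A.sqX x M'))
    (hint : Integrable (fun y : A.X => Real.sqrt (A.sqX y.1 (ρ y.1))) A.cellsM)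
    (hkill : ∀ a, IsClosedX A a → (∫ p, A.lineMap J p (a p.1.1) ∂(A.atomsM m))
      + ∫ y : A.X, A.wedgePt y.1 (ρ y.1) (a y.1) ∂A.cellsM = 0) :
    ∃ B, 0 ≤ B ∧ ∀ s, 0 < s → s ≤ 1 / 2 → IsFunX A (A.avgF J m ρ s) ∧
      ∀ (x : A.X) u, A.IsTan x.1 u →
        |A.gradX (A.avgF J m ρ s) x.1 ⬝ᵥ u| * Real.log (1 / s) ≤
          B * (∫ p, (A.rtX J x p * Real.sqrt (A.offX J p.1.1 p.1.2 u) / regD (A.distX x (A.ptX p)) s ^ 4
              + ‖u‖ * (A.rtX J x p / regD (A.distX x (A.ptX p)) s ^ 3)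
              + Real.sqrt (A.offX J p.1.1 p.1.2 u) / regD (A.distX x (A.ptX p)) s ^ 2
              + ‖u‖ * (1 / regD (A.distX x (A.ptX p)) s)) ∂(A.atomsM m))
            + B * ‖u‖ * ∫ y : A.X, Real.sqrt (A.sqX y.1 (ρ y.1)) / regD (A.distX x y) s ^ 3 ∂A.cellsM ∧
        |A.gradX (A.avgF J m ρ s) x.1 ⬝ᵥ u| * Real.log (1 / s) ≤
          B * ‖u‖ * ((∫ p, 1 / regD (A.distX x (A.ptX p)) s ^ 3 ∂(A.atomsM m))
            + ∫ y : A.X, Real.sqrt (A.sqX y.1 (ρ y.1)) / regD (A.distX x y) s ^ 3 ∂A.cellsM) := by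
  have : CompactSpace A.unitTan := isCompact_iff_compactSpace.1 A.isCompact_unitTan
  obtain ⟨ct, Ct, -, hT⟩ := hT A J hJ
  obtain ⟨Cp, hCp0, hCp⟩ := A.exists_pairing_bound
  obtain ⟨Tj, hTj0, hTj⟩ := exists_bound_of_continuous (continuous_Jv (A := A) hJ).norm
  set q := Real.sqrt N + 1
  have hq : 1 ≤ q := le_add_of_nonneg_left (Real.sqrt_nonneg _)
  set C := |Ct| + |Cb| * |Ct| + Cp * Tj * |Ct|
  have hC : 0 ≤ C := by positivity
  have hC1 : |Ct| ≤ C := by
    simp only [C]; linarith [show 0 ≤ |Cb| * |Ct| by positivity, show 0 ≤ Cp * Tj * |Ct| by positivity]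
  have hC2 : |Cb| * |Ct| ≤ C := by
    simp only [C]; linarith [show 0 ≤ |Ct| from abs_nonneg _, show 0 ≤ Cp * Tj * |Ct| by positivity]
  have hC3 : Cp * Tj * |Ct| ≤ C := by
    simp only [C]; linarith [show 0 ≤ |Ct| from abs_nonneg _, show 0 ≤ |Cb| * |Ct| by positivity]
  refine ⟨C * q, by positivity, fun s hs hs2 => ?_⟩
  have hs1 : s ≤ 1 := hs2.trans (by norm_num)
  obtain ⟨-, -, -, -, hpot, -, -, hest⟩ := hT s hs hs1
  have hL : 0 < Real.log (1 / s) := lt_of_lt_of_le (by norm_num) (half_le_log_inv hs hs2)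
  obtain ⟨hF, hid⟩ := deriv_identity (m := m) hJ hpot hρ hw hint hkill hL
  refine ⟨hF, fun x u hu => ?_⟩
  have hR : ∀ y, 0 < regD (A.distX x y) s := fun y => regD_pos _ hs
  have hW0 : ∀ y : A.X, 0 ≤ Real.sqrt (A.sqX y.1 (ρ y.1)) / regD (A.distX x y) s ^ 3 := fun y =>
    div_nonneg (Real.sqrt_nonneg _) (pow_nonneg (hR y).le 3)
  have hWi : Integrable (fun y : A.X => Real.sqrt (A.sqX y.1 (ρ y.1)) / regD (A.distX x y) s ^ 3) A.cellsM := by
    refine Integrable.mono' (hint.const_mul (1 / s ^ 3)) ((measurable_sqX measurable_subtype_coe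
      fun a b => (hρ a b).comp measurable_subtype_coe).sqrt.div ((measurable_regD
        (continuous_distX.comp (continuous_const.prodMk continuous_id)).measurable s).pow_const 3)).aestronglyMeasurable
      (ae_of_all _ fun y => ?_)
    rw [Real.norm_of_nonneg (hW0 y), mul_comm, div_eq_mul_one_div]
    exact mul_le_mul_of_nonneg_left (inv_regD_le _ hs 3) (Real.sqrt_nonneg _)
  rcases eq_or_ne u 0 with rfl | hu0
  · simp only [dotProduct_zero, abs_zero, zero_mul, norm_zero, mul_zero, add_zero, le_refl, and_true]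
    refine mul_nonneg (by positivity) (integral_nonneg fun p => ?_)
    have := hR (A.ptX p)
    have : 0 ≤ A.rtX J x p := Real.sqrt_nonneg _
    positivity
  obtain ⟨c₀, -, hc'⟩ := A.exists_chart x.2
  have hc := A.mem_box_image hc'
  set t := Real.sqrt (u ⬝ᵥ u)
  have huu : 0 < u ⬝ᵥ u := lt_of_le_of_ne (Finset.sum_nonneg fun _ _ => mul_self_nonneg _)
    fun h => hu0 (dotProduct_self_eq_zero.1 h.symm)
  have ht : 0 < t := Real.sqrt_pos.2 huu
  have htu : t ≤ q * ‖u‖ := sqrt_dot_le u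
  set v : Pt := t⁻¹ • (A.L c₀ *ᵥ u)
  have hdv : A.dmat c₀ (A.phi c₀ x.1) *ᵥ v = t⁻¹ • u := by rw [mulVec_smul, A.tan_in_chart hu c₀ hc]
  have hv1 : (A.dmat c₀ (A.phi c₀ x.1) *ᵥ v) ⬝ᵥ (A.dmat c₀ (A.phi c₀ x.1) *ᵥ v) = 1 := by
    rw [hdv, smul_dotProduct, dotProduct_smul, smul_eq_mul, smul_eq_mul, ← mul_assoc, ← mul_inv,
      Real.mul_self_sqrt huu.le, inv_mul_cancel₀ huu.ne']
  obtain ⟨E, D, hE, hD, hDE, hbd⟩ :=
    (hest x.1 x.2 x.1 x.2).2.2.2.2.2 c₀ _ (A.phi_mem c₀ hc) (A.psi_phi c₀ hc) v hv1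
  have hs' := hid c₀ _ (A.phi_mem c₀ hc) v D (isClosedX_of_dOne A hD.skew hE hDE)
  set M := fun z => A.derMat J s c₀ (A.phi c₀ x.1) v z - D z
  have hgrad : |A.gradX (A.avgF J m ρ s) x.1 ⬝ᵥ u| * Real.log (1 / s)
      = t * |(∫ p, A.lineMap J p (M p.1.1) ∂(A.atomsM m)) + ∫ y, A.wedgeMap ρ y (M y.1) ∂A.cellsM| := by
    rw [A.gradX_dot hF hu hc, ← hs', abs_mul, abs_of_pos hL, ← mul_assoc]
    congr 1
    rw [show A.L c₀ *ᵥ u = t • v by rw [smul_smul, mul_inv_cancel₀ ht.ne', one_smul], map_smul,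
      smul_eq_mul, abs_mul, abs_of_pos ht]
  have hcell : t * |∫ y, A.wedgeMap ρ y (M y.1) ∂A.cellsM|
      ≤ C * (q * ‖u‖) * ∫ y : A.X, Real.sqrt (A.sqX y.1 (ρ y.1)) / regD (A.distX x y) s ^ 3 ∂A.cellsM := by
    refine crude_bound ht htu hWi fun y => (hw y.1 y.2 _ _).trans ?_
    have h1 := (hbd y.1 y.2).1
    have hr := pow_pos (hR y) 3
    calc Cb * Real.sqrt (A.sqX y.1 (ρ y.1)) * Real.sqrt (A.sqX y.1 (M y.1))
        ≤ |Cb| * Real.sqrt (A.sqX y.1 (ρ y.1)) * (|Ct| / regD (A.distX x y) s ^ 3) := by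
          refine mul_le_mul (mul_le_mul_of_nonneg_right (le_abs_self _) (Real.sqrt_nonneg _))
            (h1.trans ?_) (Real.sqrt_nonneg _) (by positivity)
          exact div_le_div_of_nonneg_right (le_abs_self _) hr.le
      _ = |Cb| * |Ct| * (Real.sqrt (A.sqX y.1 (ρ y.1)) / regD (A.distX x y) s ^ 3) := by ring
      _ ≤ _ := mul_le_mul_of_nonneg_right hC2 (hW0 y)
  rw [hgrad]
  have hsplit : ∀ a, t * |∫ p, A.lineMap J p (M p.1.1) ∂(A.atomsM m)| ≤ a →
      t * |(∫ p, A.lineMap J p (M p.1.1) ∂(A.atomsM m)) + ∫ y, A.wedgeMap ρ y (M y.1) ∂A.cellsM|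
        ≤ a + C * q * ‖u‖ * ∫ y : A.X, Real.sqrt (A.sqX y.1 (ρ y.1)) / regD (A.distX x y) s ^ 3 ∂A.cellsM := by
    intro a ha
    refine (mul_le_mul_of_nonneg_left (abs_add_le _ _) ht.le).trans ?_
    rw [mul_add, mul_assoc C q ‖u‖]
    exact add_le_add ha hcell
  constructor
  · refine hsplit _ (atom_fine hJ hs x u ht hq htu hC _ fun p => ?_)
    have hp := (hbd p.1.1 p.2.1).2 p.1.2 p.2.2.1 p.2.2.2
    have hoff : Real.sqrt (A.offX J p.1.1 p.1.2 (A.dmat c₀ (A.phi c₀ x.1) *ᵥ v))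
        = t⁻¹ * Real.sqrt (A.offX J p.1.1 p.1.2 u) := by
      rw [hdv, offX_smul, Real.sqrt_mul (sq_nonneg _), Real.sqrt_sq (inv_nonneg.2 ht.le)]
    rw [hoff] at hp
    refine le_trans hp (mul_le_mul_of_nonneg_right ((le_abs_self _).trans hC1) ?_)
    show 0 ≤ A.rtX J x p * (t⁻¹ * Real.sqrt (A.offX J p.1.1 p.1.2 u)) / regD (A.distX x (A.ptX p)) s ^ 4
        + A.rtX J x p / regD (A.distX x (A.ptX p)) s ^ 3
        + t⁻¹ * Real.sqrt (A.offX J p.1.1 p.1.2 u) / regD (A.distX x (A.ptX p)) s ^ 2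
        + 1 / regD (A.distX x (A.ptX p)) s
    have := hR (A.ptX p)
    have : 0 ≤ A.rtX J x p := Real.sqrt_nonneg _
    positivity
  · rw [mul_add (C * q * ‖u‖)]
    refine hsplit _ ?_
    rw [mul_assoc C q ‖u‖]
    refine crude_bound ht htu
      (integrable_atom (continuous_const.div ((continuous_regAtom x s).pow 3)
        fun p => (pow_pos (hR (A.ptX p)) 3).ne')) fun p => ?_
    refine (hCp p.1.1 (M p.1.1) p.1.2 _ p.2.2.1 (Atlas.J_tan hJ p.2.1 _)).trans ?_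
    rw [← A.sqrt_sqX]
    refine le_trans ?_ (mul_le_mul_of_nonneg_right hC3 (by have := hR (A.ptX p); positivity))
    rw [mul_assoc (Cp * Tj)]
    refine mul_le_mul ?_ ((hbd p.1.1 p.2.1).1.trans ?_) (Real.sqrt_nonneg _) (by positivity)
    · have h := (le_abs_self _).trans (hTj p)
      calc Cp * ‖p.1.2‖ * ‖J p.1.1 *ᵥ p.1.2‖ ≤ Cp * 1 * Tj := by
            gcongr
            exact abs_unit_le p.2.2.2
        _ = Cp * Tj := by ring
    · rw [← mul_div_assoc, mul_one]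
      exact div_le_div_of_nonneg_right (le_abs_self _) (pow_pos (hR (A.ptX p)) 3).le

end Vale.Agent.P204.General
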