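import Mathlib
import Vale.Agent.P204.General.Closed.Deriv

/-!
# P204 on a closed four-manifold: the cut-off only costs a negligible error
-/

open MeasureTheory Matrix Filter Set
open scoped ContDiff Topology

namespace Vale.Agent.P204.General

open Vale.Agent.P204.Torus Vale.Agent.P204.Est

variable {N K : ℕ} {A : Atlas N K} {J : Amb N → MN N} {m : Measure (Amb N × Amb N)}
  {ρ : Amb N → MN N}

/-- The fine bound in a unit direction or its image under `J`, by the pair kernel. -/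
theorem exists_unit_directions (hJ : IsACS A J) :
    ∃ Q, 1 ≤ Q ∧ ∀ (q p : A.unitTan) (u : Amb N), (u = q.1.2 ∨ u = J q.1.1 *ᵥ q.1.2) →
      ‖u‖ ≤ Q ∧ Real.sqrt (A.offX J p.1.1 p.1.2 u) ≤ Q * A.thX J q p := by
  have : CompactSpace A.unitTan := isCompact_iff_compactSpace.1 A.isCompact_unitTan
  obtain ⟨BJ, hBJ0, hBJ⟩ := exists_sqrt_offX_J (A := A) hJ
  obtain ⟨Tj, hTj0, hTj⟩ := exists_bound_of_continuous (continuous_Jv (A := A) hJ).norm
  refine ⟨1 + BJ + Tj, by linarith, fun q p u hu => ?_⟩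
  have hth : 0 ≤ A.thX J q p := add_nonneg (Real.sqrt_nonneg _) (norm_nonneg _)
  rcases hu with rfl | rfl
  · refine ⟨(abs_unit_le q.2.2.2).trans (by linarith), ?_⟩
    refine le_trans ?_ (le_mul_of_one_le_left hth (by linarith))
    exact le_add_of_nonneg_right (norm_nonneg _)
  · exact ⟨((le_abs_self _).trans (hTj q)).trans (by linarith),
      (hBJ q p).trans (mul_le_mul_of_nonneg_right (by linarith) hth)⟩

variable [IsFiniteMeasure m]

omit [IsFiniteMeasure m] in
/-- The fine bound is at most a multiple of the pair kernel. -/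
theorem fine_le_kernel {s : ℝ} (hs : 0 < s) {Q : ℝ} (q : A.unitTan) {u : Amb N} (hu : ‖u‖ ≤ Q)
    (ho : ∀ p : A.unitTan, Real.sqrt (A.offX J p.1.1 p.1.2 u) ≤ Q * A.thX J q p)
    (hi : Integrable (fun p => pairKernel A.ptX A.distX (A.rtX J) (A.thX J) s (q, p)) (A.atomsM m)) :
    ∫ p, (A.rtX J (A.ptX q) p * Real.sqrt (A.offX J p.1.1 p.1.2 u)
          / regD (A.distX (A.ptX q) (A.ptX p)) s ^ 4
        + ‖u‖ * (A.rtX J (A.ptX q) p / regD (A.distX (A.ptX q) (A.ptX p)) s ^ 3)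
        + Real.sqrt (A.offX J p.1.1 p.1.2 u) / regD (A.distX (A.ptX q) (A.ptX p)) s ^ 2
        + ‖u‖ * (1 / regD (A.distX (A.ptX q) (A.ptX p)) s)) ∂(A.atomsM m)
      ≤ Q * ∫ p, pairKernel A.ptX A.distX (A.rtX J) (A.thX J) s (q, p) ∂(A.atomsM m) := by
  rw [← integral_const_mul]
  refine integral_mono_of_nonneg (ae_of_all _ fun p => ?_) (hi.const_mul Q) (ae_of_all _ fun p => ?_)
  · have := regD_pos (A.distX (A.ptX q) (A.ptX p)) hs
    have : 0 ≤ A.rtX J (A.ptX q) p := Real.sqrt_nonneg _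
    show 0 ≤ _
    positivity
  have hR := regD_pos (A.distX (A.ptX q) (A.ptX p)) hs
  have hr : 0 ≤ A.rtX J (A.ptX q) p := Real.sqrt_nonneg _
  have h := ho p
  simp only [pairKernel]
  set R := regD (A.distX (A.ptX q) (A.ptX p)) s
  set r := A.rtX J (A.ptX q) p
  set o := Real.sqrt (A.offX J p.1.1 p.1.2 u)
  set th := A.thX J q p
  have h1 : r * o / R ^ 4 ≤ Q * (r * th / R ^ 4) := by
    rw [← mul_div_assoc, mul_left_comm]
    exact div_le_div_of_nonneg_right (mul_le_mul_of_nonneg_left h hr) (by positivity)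
  have h2 : o / R ^ 2 ≤ Q * (th / R ^ 2) := by
    rw [← mul_div_assoc]; exact div_le_div_of_nonneg_right h (by positivity)
  have h3 : ‖u‖ * (r / R ^ 3) ≤ Q * (r / R ^ 3) := mul_le_mul_of_nonneg_right hu (by positivity)
  have h4 : ‖u‖ * (1 / R) ≤ Q * (1 / R) := mul_le_mul_of_nonneg_right hu (by positivity)
  linarith

/-- The differential of the cut-off contributes nothing in the limit. -/
theorem cutoff_tendsto (hJ : IsACS A J) {Aa C : ℝ} (hB : ∀ p q, |A.thX J q p| ≤ C)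
    (S : Space (A.atomsM m) A.cellsM A.ptX A.distX Aa)
    (hrt : ∀ x p, |A.rtX J x p| ≤ C * A.distX x (A.ptX p))
    (hrtI : ∀ x s, 0 < s → s ≤ 1 →
      ∫ p, A.rtX J x p ^ 2 / regD (A.distX x (A.ptX p)) s ^ 4 ∂(A.atomsM m) ≤ C)
    (hthI : ∀ s, 0 < s → s ≤ 1 / 2 →
      ∫ q, (∫ p, A.thX J q p ^ 2 / regD (A.distX (A.ptX q) (A.ptX p)) s ^ 4 ∂(A.atomsM m))
        ∂(A.atomsM m) ≤ C * Real.log (1 / s))
    (hρ : ∀ a b, Measurable fun x => ρ x a b)
    (hmem : MemLp (fun y : A.X => Real.sqrt (A.sqX y.1 (ρ y.1))) 2 A.cellsM) {Cb : ℝ}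
    (hw : ∀ x ∈ A.X, ∀ M M', |A.wedgePt x M M'| ≤ Cb * Real.sqrt (A.sqX x M) * Real.sqrt (A.sqX x M'))
    (F : ℝ → Amb N → ℝ) {B : ℝ} (hB0 : 0 ≤ B)
    (hF : ∀ s, 0 < s → s ≤ 1 / 2 → IsFunX A (F s) ∧
      ∀ (x : A.X) u, A.IsTan x.1 u →
        |A.gradX (F s) x.1 ⬝ᵥ u| * Real.log (1 / s) ≤
          B * (∫ p, (A.rtX J x p * Real.sqrt (A.offX J p.1.1 p.1.2 u) / regD (A.distX x (A.ptX p)) s ^ 4
              + ‖u‖ * (A.rtX J x p / regD (A.distX x (A.ptX p)) s ^ 3)
              + Real.sqrt (A.offX J p.1.1 p.1.2 u) / regD (A.distX x (A.ptX p)) s ^ 2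
              + ‖u‖ * (1 / regD (A.distX x (A.ptX p)) s)) ∂(A.atomsM m))
            + B * ‖u‖ * ∫ y : A.X, Real.sqrt (A.sqX y.1 (ρ y.1)) / regD (A.distX x y) s ^ 3 ∂A.cellsM ∧
        |A.gradX (F s) x.1 ⬝ᵥ u| * Real.log (1 / s) ≤
          B * ‖u‖ * ((∫ p, 1 / regD (A.distX x (A.ptX p)) s ^ 3 ∂(A.atomsM m))
            + ∫ y : A.X, Real.sqrt (A.sqX y.1 (ρ y.1)) / regD (A.distX x y) s ^ 3 ∂A.cellsM))
    {Bf : ℝ} (hbd : ∀ᶠ s in 𝓝[>] (0 : ℝ), ∀ x ∈ A.X, |F s x| ≤ Bf)
    {g : ℝ → ℝ} (hg : ContDiff ℝ ∞ g) {b : Amb N → Amb N} (hb : IsOneX A b) :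
    Tendsto (fun s => ∫ p, A.lineMap J p (wedgeOne (A.gradX (fun z => g (-F s z)) p.1.1) (b p.1.1))
      ∂(A.atomsM m)) (𝓝[>] 0) (𝓝 0) ∧
    Tendsto (fun s => ∫ y : A.X, A.wedgePt y.1 (ρ y.1)
      (wedgeOne (A.gradX (fun z => g (-F s z)) y.1) (b y.1)) ∂A.cellsM) (𝓝[>] 0) (𝓝 0) := by
  have : CompactSpace A.unitTan := isCompact_iff_compactSpace.1 A.isCompact_unitTan
  have := S.finVol
  obtain ⟨Q, hQ, hdir⟩ := exists_unit_directions (A := A) hJ
  obtain ⟨Bb, hBb0, hBb⟩ := exists_oneX_bound hb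
  obtain ⟨Bw, hBw0, hBw⟩ := exists_wedgeOne_size hb
  obtain ⟨Dg, hDg⟩ := (isCompact_Icc (a := -Bf) (b := Bf)).exists_bound_of_continuousOn
    (hg.continuous_deriv (by norm_num)).continuousOn
  set rho := fun y : A.X => Real.sqrt (A.sqX y.1 (ρ y.1))
  have hrm : Measurable rho :=
    (measurable_sqX measurable_subtype_coe fun a b => (hρ a b).comp measurable_subtype_coe).sqrt
  have hr0 : ∀ y, 0 ≤ rho y := fun y => Real.sqrt_nonneg _
  obtain ⟨Be, hBe⟩ := S.energy (rt := A.rtX J) (th := A.thX J) (C := C) (continuous_rtX hJ).measurable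
    (continuous_thX hJ).measurable hrt (fun p q => hB q p) hrtI hthI
  obtain ⟨hsi, hsl⟩ := S.rho_small hrm hmem hr0
  obtain ⟨Bs, hBs⟩ := S.rho_self hrm hmem hr0
  set κ := |Dg| * B * Q * Bb * Q
  have hev : ∀ᶠ s in 𝓝[>] (0 : ℝ), (0 < s ∧ s ≤ 1 / 2) ∧ ∀ x ∈ A.X, |F s x| ≤ Bf :=
    (eventually_small (by norm_num)).and hbd
  have hdG : ∀ s, (0 < s ∧ s ≤ 1 / 2) → (∀ x ∈ A.X, |F s x| ≤ Bf) → ∀ (x : A.X) u, A.IsTan x.1 u →
      |A.gradX (fun z => g (-F s z)) x.1 ⬝ᵥ u| ≤ |Dg| * |A.gradX (F s) x.1 ⬝ᵥ u| := by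
    intro s hs hsb x u hu
    rw [gradX_comp_dot A hg (hF s hs.1 hs.2).1 hu, abs_mul, abs_neg]
    refine mul_le_mul_of_nonneg_right ?_ (abs_nonneg _)
    have h := hsb x.1 x.2
    rw [abs_le] at h
    exact ((Real.norm_eq_abs _).symm.trans_le (hDg _ ⟨by linarith, by linarith⟩)).trans (le_abs_self _)
  constructor
  · refine squeeze_zero_norm' (a := fun s => 2 * κ * (Be * Real.sqrt (Real.log (1 / s)) / Real.log (1 / s)
      + (∫ z : A.unitTan × A.X, rho z.2 / regD (A.distX (A.ptX z.1) z.2) s ^ 3 ∂((A.atomsM m).prod A.cellsM))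
        / Real.log (1 / s))) ?_ ?_
    · filter_upwards [hev] with s hs
      obtain ⟨hs, hsb⟩ := hs
      set L := Real.log (1 / s)
      have hL : 0 < L := lt_of_lt_of_le (by norm_num) (half_le_log_inv hs.1 hs.2)
      obtain ⟨hKi, hKI⟩ := hBe s hs.1 hs.2
      have hWi := hsi s hs.1
      set PK := pairKernel A.ptX A.distX (A.rtX J) (A.thX J) s
      set WK := fun z : A.unitTan × A.X => rho z.2 / regD (A.distX (A.ptX z.1) z.2) s ^ 3
      have hpt : ∀ᵐ q ∂(A.atomsM m),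
          |A.lineMap J q (wedgeOne (A.gradX (fun z => g (-F s z)) q.1.1) (b q.1.1))|
            ≤ 2 * κ / L * ((∫ p, PK (q, p) ∂(A.atomsM m)) + ∫ y, WK (q, y) ∂A.cellsM) := by
        filter_upwards [hKi.prod_right_ae] with q hq
        set Ψ := (∫ p, PK (q, p) ∂(A.atomsM m)) + ∫ y, WK (q, y) ∂A.cellsM
        have hd : ∀ u, (u = q.1.2 ∨ u = J q.1.1 *ᵥ q.1.2) → A.IsTan q.1.1 u →
            |A.gradX (fun z => g (-F s z)) q.1.1 ⬝ᵥ u| ≤ |Dg| * B * Q * Ψ / L := by
          intro u hu hut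
          refine (hdG s hs hsb (A.ptX q) u hut).trans ?_
          rw [mul_assoc |Dg|, mul_assoc |Dg|, mul_div_assoc]
          refine mul_le_mul_of_nonneg_left ?_ (abs_nonneg _)
          rw [le_div_iff₀ hL]
          refine ((hF s hs.1 hs.2).2 (A.ptX q) u hut).1.trans ?_
          have h1 := mul_le_mul_of_nonneg_left (fine_le_kernel hs.1 q (hdir q q u hu).1
            (fun p => (hdir q p u hu).2) hq) hB0
          have hnn : 0 ≤ ∫ y, WK (q, y) ∂A.cellsM := integral_nonneg fun y =>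
            div_nonneg (hr0 _) (pow_nonneg (regD_pos _ hs.1).le 3)
          have h2 : B * ‖u‖ * (∫ y, WK (q, y) ∂A.cellsM) ≤ B * Q * ∫ y, WK (q, y) ∂A.cellsM :=
            mul_le_mul_of_nonneg_right (mul_le_mul_of_nonneg_left (hdir q q u hu).1 hB0) hnn
          refine (add_le_add h1 h2).trans_eq ?_
          simp only [Ψ]; ring
        have hJt : A.IsTan q.1.1 (J q.1.1 *ᵥ q.1.2) := Atlas.J_tan hJ q.2.1 _
        have d1 := hd _ (Or.inl rfl) q.2.2.1
        have d2 := hd _ (Or.inr rfl) hJt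
        have b1 : |b q.1.1 ⬝ᵥ (J q.1.1 *ᵥ q.1.2)| ≤ Bb * Q :=
          (hBb _ _ hJt).trans (mul_le_mul_of_nonneg_left (hdir q q _ (Or.inr rfl)).1 hBb0)
        have b2 : |b q.1.1 ⬝ᵥ q.1.2| ≤ Bb * Q :=
          (hBb _ _ q.2.2.1).trans (mul_le_mul_of_nonneg_left (hdir q q _ (Or.inl rfl)).1 hBb0)
        show |q.1.2 ⬝ᵥ (wedgeOne (A.gradX (fun z => g (-F s z)) q.1.1) (b q.1.1) *ᵥ (J q.1.1 *ᵥ q.1.2))| ≤ _
        rw [wedgeOne_ev, dotProduct_comm q.1.2 (A.gradX _ _), dotProduct_comm q.1.2 (b q.1.1)]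
        refine (abs_sub _ _).trans ?_
        rw [abs_mul, abs_mul]
        refine (add_le_add (mul_le_mul d1 b1 (abs_nonneg _) ((abs_nonneg _).trans d1))
          (mul_le_mul b2 d2 (abs_nonneg _) ((abs_nonneg _).trans b2))).trans_eq ?_
        simp only [κ]; ring
      rw [Real.norm_eq_abs]
      refine abs_integral_le_integral_abs.trans ((integral_mono_of_nonneg (ae_of_all _ fun _ => abs_nonneg _)
        ((hKi.integral_prod_left.add hWi.integral_prod_left).const_mul (2 * κ / L)) hpt).trans ?_)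
      simp only [Pi.add_apply]
      rw [integral_const_mul, integral_add hKi.integral_prod_left hWi.integral_prod_left,
        ← integral_prod _ hKi, ← integral_prod _ hWi, ← add_div, ← mul_div_assoc, div_mul_eq_mul_div]
      refine div_le_div_of_nonneg_right (mul_le_mul_of_nonneg_left (add_le_add hKI le_rfl) ?_) hL.le
      positivity
    · have h1 : Tendsto (fun s => Be * Real.sqrt (Real.log (1 / s)) / Real.log (1 / s)) (𝓝[>] 0) (𝓝 0) := by
        refine ((tendsto_const_nhds (x := Be)).div_atTop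
          (Real.tendsto_sqrt_atTop.comp tendsto_log_inv)).congr' ?_
        filter_upwards [eventually_small (show (0 : ℝ) < 1 / 2 by norm_num)] with s hs
        have hL : 0 < Real.log (1 / s) := lt_of_lt_of_le (by norm_num) (half_le_log_inv hs.1 hs.2)
        show Be / Real.sqrt (Real.log (1 / s)) = _
        rw [div_eq_div_iff (Real.sqrt_pos.2 hL).ne' hL.ne', mul_assoc, Real.mul_self_sqrt hL.le]
      simpa using (h1.add hsl).const_mul (2 * κ)
  · refine squeeze_zero_norm' (a := fun s => |Cb| * Bw * |Dg| * B * (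
      (∫ z : A.unitTan × A.X, rho z.2 / regD (A.distX (A.ptX z.1) z.2) s ^ 3 ∂((A.atomsM m).prod A.cellsM))
        / Real.log (1 / s) + |Bs| / Real.log (1 / s))) ?_ ?_
    · filter_upwards [hev] with s hs
      obtain ⟨hs, hsb⟩ := hs
      set L := Real.log (1 / s)
      have hL : 0 < L := lt_of_lt_of_le (by norm_num) (half_le_log_inv hs.1 hs.2)
      have hWi := hsi s hs.1
      obtain ⟨hSi, hSI⟩ := hBs s hs.1
      set P1 := fun y : A.X => ∫ q, rho y / regD (A.distX (A.ptX q) y) s ^ 3 ∂(A.atomsM m)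
      set P2 := fun y : A.X => ∫ z, rho y * rho z / regD (A.distX y z) s ^ 3 ∂A.cellsM
      have hpt : ∀ y : A.X,
          |A.wedgePt y.1 (ρ y.1) (wedgeOne (A.gradX (fun z => g (-F s z)) y.1) (b y.1))|
            ≤ |Cb| * Bw * |Dg| * B / L * (P1 y + P2 y) := fun y => by
        set I1 := ∫ p, 1 / regD (A.distX y (A.ptX p)) s ^ 3 ∂(A.atomsM m)
        set I2 := ∫ z : A.X, rho z / regD (A.distX y z) s ^ 3 ∂A.cellsM
        have hI : 0 ≤ I1 + I2 := add_nonneg
          (integral_nonneg fun p => by have := regD_pos (A.distX y (A.ptX p)) hs.1; positivity)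
          (integral_nonneg fun z => div_nonneg (hr0 _) (pow_nonneg (regD_pos _ hs.1).le 3))
        have hsize := hBw y.1 y.2 (A.gradX (fun z => g (-F s z)) y.1) (|Dg| * B * (I1 + I2) / L)
          (by positivity) fun v hv => by
            refine (hdG s hs hsb y v hv).trans ?_
            rw [mul_assoc |Dg|, mul_div_assoc, mul_assoc |Dg|]
            refine mul_le_mul_of_nonneg_left ?_ (abs_nonneg _)
            rw [div_mul_eq_mul_div, le_div_iff₀ hL, mul_right_comm B]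
            exact ((hF s hs.1 hs.2).2 y v hv).2
        refine (hw y.1 y.2 _ _).trans ?_
        refine (mul_le_mul (mul_le_mul_of_nonneg_right (le_abs_self Cb) (Real.sqrt_nonneg _)) hsize
          (Real.sqrt_nonneg _) (by positivity)).trans_eq ?_
        have e1 : P1 y = rho y * I1 := by
          simp only [P1, I1, S.symm _ y, ← integral_const_mul, mul_one_div]
        have e2 : P2 y = rho y * I2 := by
          simp only [P2, I2, ← integral_const_mul, mul_div_assoc]
        rw [e1, e2]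
        show |Cb| * rho y * (Bw * (|Dg| * B * (I1 + I2) / L)) = _
        ring
      rw [Real.norm_eq_abs]
      refine abs_integral_le_integral_abs.trans ((integral_mono_of_nonneg (ae_of_all _ fun _ => abs_nonneg _)
        ((hWi.integral_prod_right.add hSi.integral_prod_left).const_mul (|Cb| * Bw * |Dg| * B / L))
        (ae_of_all _ hpt)).trans ?_)
      have i1 : Integrable (fun y : A.X => ∫ q, rho y / regD (A.distX (A.ptX q) y) s ^ 3 ∂(A.atomsM m))
          A.cellsM := hWi.integral_prod_right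
      have i2 : Integrable (fun y : A.X => ∫ z, rho y * rho z / regD (A.distX y z) s ^ 3 ∂A.cellsM)
          A.cellsM := hSi.integral_prod_left
      simp only [Pi.add_apply]
      rw [integral_const_mul, integral_add i1 i2,
        ← integral_prod_symm _ hWi, ← integral_prod _ hSi, ← add_div, ← mul_div_assoc, div_mul_eq_mul_div]
      refine div_le_div_of_nonneg_right (mul_le_mul_of_nonneg_left
        (add_le_add le_rfl (hSI.trans (le_abs_self _))) ?_) hL.le
      positivity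
    · simpa using (hsl.add ((tendsto_const_nhds (x := |Bs|)).div_atTop tendsto_log_inv)).const_mul
        (|Cb| * Bw * |Dg| * B)

end Vale.Agent.P204.General
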