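import Mathlib
import Vale.Agent.P204.General.Closed.Small
import Vale.Agent.P204.General.Basic.Main

/-!
# P204 on a closed four-manifold: the weighted current is closed (module H)
-/

open MeasureTheory Matrix Filter Set
open scoped ContDiff Topology

namespace Vale.Agent.P204.General

open Vale.Agent.P204.Torus Vale.Agent.P204.Est

variable {N K : ℕ}

/-- For small scales the averaged potential is the abstract pairing. -/
theorem avgF_eq (A : Atlas N K) (J ρ : Amb N → MN N) (m : Measure (Amb N × Amb N)) {s : ℝ}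
    (hs : 0 < s) (hs1 : s ≤ 1) (x : A.X) :
    A.avgF J m ρ s x.1
      = (A.testData J ρ).pair (A.atomsM m) A.cellsM A.ptX s x / Real.log (1 / s) := by
  simp only [Atlas.avgF, TestData.pair, Atlas.testData, if_pos (And.intro hs hs1)]
  rfl

theorem continuous_of_funX (A : Atlas N K) {f : Amb N → ℝ} (hf : IsFunX A f) :
    Continuous fun y : A.X => f y.1 :=
  (continuousOn_of_charts A fun c => (hf c).continuousOn).domRestrict

/-- Module H. -/
theorem closedStmt_of (hB : BasicStmt) (hT : TestStmt) (hAp : AprioriStmt) : ClosedStmt := by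
  intro N K A J m R C₀ hJ hm hR
  have := hm.finite
  obtain ⟨ρ, Aa, c, C, S, V, hthB, hthI, hρ, hskew, hRρ⟩ := exists_data hB hT hAp hJ hm hR
  obtain ⟨cb, Cb, -, -, -, -, -, hw, -, -, -⟩ := hB A J hJ
  have := S.finVol
  have hmem : MemLp (fun y : A.X => Real.sqrt (A.sqX y.1 (ρ y.1))) 2 A.cellsM := V.rhoMem
  have hint := hmem.integrable (by norm_num : (1 : ENNReal) ≤ 2)
  have hkill : ∀ a, IsClosedX A a → (∫ p, A.lineMap J p (a p.1.1) ∂(A.atomsM m))
      + ∫ y : A.X, A.wedgePt y.1 (ρ y.1) (a y.1) ∂A.cellsM = 0 := fun a ha => by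
    have h := hR.kills a ha
    rw [hRρ a ha.toIsTestX, tcurX, ← integral_atomsM hm.supp] at h
    exact h
  obtain ⟨B₁, hB₁0, hF⟩ := exists_deriv_bound (m := m) hJ hT hρ hw hint hkill
  obtain ⟨ν, B, hνm, hνb, hν0, hνd, hνlim, hνbd⟩ := V.exists_density S
  set ν' : Amb N → ℝ := Function.extend Subtype.val ν 0
  have hν' : ∀ x : A.X, ν' x.1 = ν x := fun x => Subtype.val_injective.extend_apply _ _ x
  refine ⟨ν', max B 0,
    (MeasurableEmbedding.subtype_coe measurableSet_manifold).measurable_extend hνm measurable_const,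
    fun x => ?_, fun x hx η hη => ?_, fun g hg hg0 a b hb ha hab => ?_⟩
  · by_cases hx : x ∈ A.X
    · rw [show x = ((⟨x, hx⟩ : A.X) : Amb N) from rfl, hν']
      exact ⟨(hνb _).1, (hνb _).2.trans (le_max_left _ _)⟩
    · rw [show ν' x = 0 from Function.extend_apply' _ _ _ (by rintro ⟨y, rfl⟩; exact hx y.2)]
      exact ⟨le_rfl, le_max_right _ _⟩
  · rw [hν' ⟨x, hx⟩]
    filter_upwards [hνd ⟨x, hx⟩ η hη] with r hr
    have e : (m {p | ‖x - p.1‖ ≤ r}).toReal
        = (A.atomsM m).real {p | A.distX ⟨x, hx⟩ (A.ptX p) ≤ r} := by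
      rw [measureReal_def, Atlas.atomsM,
        (MeasurableEmbedding.subtype_coe measurableSet_unitTan).comap_apply]
      congr 1
      refine (measure_inter_conull (t := A.unitTan) (ae_iff.1 hm.supp)).symm.trans (congrArg m ?_)
      ext p
      constructor
      · rintro ⟨h1, h2⟩; exact ⟨⟨p, h2⟩, h1, rfl⟩
      · rintro ⟨q, hq, rfl⟩; exact ⟨hq, q.2⟩
    rw [e]
    refine hr.trans (mul_le_mul_of_nonneg_right (add_le_add ?_ le_rfl) (sq_nonneg r))
    exact mul_le_mul_of_nonneg_right (le_max_left _ _) (hνb _).1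
  set F := fun s => A.avgF J m ρ s
  have hbd : ∀ᶠ s in 𝓝[>] (0 : ℝ), ∀ x ∈ A.X, |F s x| ≤ B := by
    filter_upwards [eventually_small (show (0 : ℝ) < 1 by norm_num), hνbd] with s hs hs' x hx
    show |A.avgF J m ρ s ((⟨x, hx⟩ : A.X) : Amb N)| ≤ B
    rw [avgF_eq A J ρ m hs.1 hs.2]
    exact hs' _
  have hlim : ∀ x : A.X, Tendsto (fun s => g (-F s x.1)) (𝓝[>] 0) (𝓝 (g (ν x))) := fun x => by
    have h : Tendsto (fun s => -F s x.1) (𝓝[>] 0) (𝓝 (ν x)) := by
      rw [← neg_neg (ν x)]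
      refine ((hνlim x).congr' ?_).neg
      filter_upwards [eventually_small (show (0 : ℝ) < 1 by norm_num)] with s hs
      exact (avgF_eq A J ρ m hs.1 hs.2 x).symm
    exact (hg.continuous.tendsto _).comp h
  obtain ⟨Bg, hBg⟩ := (isCompact_Icc (a := -B) (b := B)).exists_bound_of_continuousOn hg.continuous.continuousOn
  have hgb : ∀ᶠ s in 𝓝[>] (0 : ℝ), (0 < s ∧ s ≤ 1 / 2) ∧ ∀ x : A.X, |g (-F s x.1)| ≤ Bg := by
    filter_upwards [eventually_small (show (0 : ℝ) < 1 / 2 by norm_num), hbd] with s hs hb'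
    refine ⟨hs, fun x => ?_⟩
    obtain ⟨h1, h2⟩ := abs_le.1 (hb' x.1 x.2)
    rw [← Real.norm_eq_abs]
    exact hBg _ ⟨by linarith, by linarith⟩
  have hG : ∀ᶠ s in 𝓝[>] (0 : ℝ), IsFunX A fun z => g (-F s z) := by
    filter_upwards [hgb] with s hs
    exact isFunX_comp A hg (hF s hs.1.1 hs.1.2).1
  obtain ⟨hP1, hP2⟩ := cutoff_tendsto (m := m) hJ (fun p q => hthB q p) S V.rtle V.rtInt hthI hρ hmem hw F hB₁0
    (fun s h1 h2 => hF s h1 h2) hbd hg hb
  have : CompactSpace A.unitTan := isCompact_iff_compactSpace.1 A.isCompact_unitTan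
  have hline := continuous_line hJ ha
  have hI1 : Tendsto (fun s => ∫ p, g (-F s p.1.1) * A.lineMap J p (a p.1.1) ∂(A.atomsM m)) (𝓝[>] 0)
      (𝓝 (∫ p, g (ν (A.ptX p)) * A.lineMap J p (a p.1.1) ∂(A.atomsM m))) := by
    refine tendsto_integral_filter_of_dominated_convergence
      (fun p => |Bg| * |A.lineMap J p (a p.1.1)|) ?_ ?_ ((integrable_atom hline).abs.const_mul _) ?_
    · filter_upwards [hG] with s hs
      exact (((continuous_of_funX A hs).comp continuous_ptX).mul hline).aestronglyMeasurable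
    · filter_upwards [hgb] with s hs
      refine ae_of_all _ fun p => ?_
      rw [norm_mul, Real.norm_eq_abs, Real.norm_eq_abs]
      exact mul_le_mul_of_nonneg_right ((hs.2 (A.ptX p)).trans (le_abs_self _)) (abs_nonneg _)
    · exact ae_of_all _ fun p => (hlim (A.ptX p)).mul_const _
  have hI2 : Tendsto (fun s => ∫ y : A.X, g (-F s y.1) * A.wedgePt y.1 (ρ y.1) (a y.1) ∂A.cellsM) (𝓝[>] 0)
      (𝓝 0) := by
    have hz : ∫ y : A.X, g (ν y) * A.wedgePt y.1 (ρ y.1) (a y.1) ∂A.cellsM = 0 :=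
      integral_eq_zero_of_ae (hν0.mono fun y hy => by simp [hy, hg0])
    rw [show 𝓝 (0 : ℝ) = 𝓝 (∫ y : A.X, g (ν y) * A.wedgePt y.1 (ρ y.1) (a y.1) ∂A.cellsM) by rw [hz]]
    refine tendsto_integral_filter_of_dominated_convergence
      (fun y => |Bg| * |A.wedgePt y.1 (ρ y.1) (a y.1)|) ?_ ?_
      ((wedge_test_integrable hρ hw hint ha).abs.const_mul _) ?_
    · filter_upwards [hG] with s hs
      exact ((continuous_of_funX A hs).measurable.mul (measurable_wedge_test hρ ha)).aestronglyMeasurable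
    · filter_upwards [hgb] with s hs
      refine ae_of_all _ fun y => ?_
      rw [norm_mul, Real.norm_eq_abs, Real.norm_eq_abs]
      exact mul_le_mul_of_nonneg_right ((hs.2 y).trans (le_abs_self _)) (abs_nonneg _)
    · exact ae_of_all _ fun y => (hlim y).mul_const _
  have hid : ∀ᶠ s in 𝓝[>] (0 : ℝ), -((∫ p, A.lineMap J p
        (wedgeOne (A.gradX (fun z => g (-F s z)) p.1.1) (b p.1.1)) ∂(A.atomsM m))
      + ((∫ y : A.X, g (-F s y.1) * A.wedgePt y.1 (ρ y.1) (a y.1) ∂A.cellsM)
        + ∫ y : A.X, A.wedgePt y.1 (ρ y.1) (wedgeOne (A.gradX (fun z => g (-F s z)) y.1) (b y.1)) ∂A.cellsM))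
      = ∫ p, g (-F s p.1.1) * A.lineMap J p (a p.1.1) ∂(A.atomsM m) := by
    filter_upwards [hG] with s hs
    set G := fun z => g (-F s z)
    have hp := isClosedX_of_dOne A (prodForm_skew A G b ha.skew) (isOneX_mul A hs hb)
      (isDOne_prod A hs hb hab)
    have h := hkill _ hp
    have hc := continuous_of_funX A hs
    have i1 : Integrable (fun p : A.unitTan => G p.1.1 * A.lineMap J p (a p.1.1)) (A.atomsM m) :=
      integrable_atom ((hc.comp continuous_ptX).mul hline)
    have i2 : Integrable (fun y : A.X => G y.1 * A.wedgePt y.1 (ρ y.1) (a y.1)) A.cellsM := by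
      obtain ⟨BG, hBG⟩ := A.compact.exists_bound_of_continuousOn
        (continuousOn_of_charts A fun c => (hs c).continuousOn)
      exact (wedge_test_integrable hρ hw hint ha).bdd_mul hc.aestronglyMeasurable
        (ae_of_all _ fun y => hBG y.1 y.2)
    have e1 : ∀ p : A.unitTan, A.lineMap J p (A.prodForm G a b p.1.1)
        = G p.1.1 * A.lineMap J p (a p.1.1) + A.lineMap J p (wedgeOne (A.gradX G p.1.1) (b p.1.1)) :=
      fun p => by rw [Atlas.prodForm, map_add, map_smul, smul_eq_mul]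
    have e2 : ∀ y : A.X, A.wedgePt y.1 (ρ y.1) (A.prodForm G a b y.1)
        = G y.1 * A.wedgePt y.1 (ρ y.1) (a y.1) + A.wedgePt y.1 (ρ y.1) (wedgeOne (A.gradX G y.1) (b y.1)) :=
      fun y => by
        rw [Atlas.prodForm, A.wedgePt_add_right, A.wedgePt_comm y.1 (ρ y.1) (G y.1 • a y.1),
          A.wedgePt_smul_left, A.wedgePt_comm y.1 (a y.1)]
    have j1 : Integrable (fun p : A.unitTan => A.lineMap J p (wedgeOne (A.gradX G p.1.1) (b p.1.1)))
        (A.atomsM m) :=
      ((integrable_atom (continuous_line hJ hp.toIsTestX)).sub i1).congr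
        (ae_of_all _ fun p => by simp [e1 p, G])
    have j2 : Integrable (fun y : A.X => A.wedgePt y.1 (ρ y.1) (wedgeOne (A.gradX G y.1) (b y.1))) A.cellsM :=
      ((wedge_test_integrable hρ hw hint hp.toIsTestX).sub i2).congr
        (ae_of_all _ fun y => by simp [e2 y, G])
    simp only [e1, e2] at h
    rw [integral_add i1 j1, integral_add i2 j2] at h
    linarith
  have h0 := ((hP1.add (hI2.add hP2)).neg).congr' hid
  simp only [add_zero, neg_zero] at h0
  have hfin := tendsto_nhds_unique hI1 h0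
  rw [← integral_atomsM (A := A) hm.supp]
  refine Eq.trans ?_ hfin
  refine integral_congr_ae (ae_of_all _ fun p => ?_)
  show g (ν' p.1.1) * _ = g (ν (A.ptX p)) * _
  rw [show p.1.1 = ((A.ptX p : A.X) : Amb N) from rfl, hν']
  rfl

end Vale.Agent.P204.General
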